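import Mathlib
import Crest.Prelude.Def_VanishingOrder

/-!
R259 (Nagata): from a domain to its field of fractions (clearing denominators).
-/

set_option autoImplicit false

open MvPolynomial Crest.AlgGeometry

namespace Crest.Agent.R259.Asm

section Map

variable {A B : Type*} [CommRing A] [CommRing B] {σ : Type*}

theorem homogeneousComponent_map' (f : A →+* B) (k : ℕ) (F : MvPolynomial σ A) :
    homogeneousComponent k (MvPolynomial.map f F) =
      MvPolynomial.map f (homogeneousComponent k F) := by
  ext s
  simp only [coeff_homogeneousComponent, coeff_map]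
  split_ifs <;> simp

theorem map_shift (f : A →+* B) (p : σ → A) (F : MvPolynomial σ A) :
    MvPolynomial.map f (MvPolynomial.aeval (fun j => MvPolynomial.X j + MvPolynomial.C (p j)) F) =
      MvPolynomial.aeval (fun j => MvPolynomial.X j + MvPolynomial.C (f (p j)))
        (MvPolynomial.map f F) := by
  induction F using MvPolynomial.induction_on with
  | C a => simp [MvPolynomial.algebraMap_eq]
  | add P Q hP hQ => rw [map_add, map_add, map_add, map_add, hP, hQ]
  | mul_X P i hP =>
    rw [map_mul, map_mul, map_mul, map_mul, hP, MvPolynomial.aeval_X, MvPolynomial.map_X,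
      MvPolynomial.aeval_X, map_add, MvPolynomial.map_X, MvPolynomial.map_C]

/-- order of vanishing is compatible with injective base change. -/
theorem vanishesToOrder_map_iff (f : A →+* B) (hf : Function.Injective f) (p : σ → A)
    (F : MvPolynomial σ A) (m : ℕ) :
    VanishesToOrder (MvPolynomial.map f F) (fun i => f (p i)) m ↔ VanishesToOrder F p m := by
  unfold VanishesToOrder
  refine forall₂_congr fun k _ => ?_
  rw [← map_shift, homogeneousComponent_map']
  constructor
  · intro h
    exact MvPolynomial.map_injective f hf (by simpa using h)
  · intro h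
    rw [h]; simp

theorem vanishesToOrder_C_mul (a : A) (p : σ → A) (F : MvPolynomial σ A) (m : ℕ)
    (h : VanishesToOrder F p m) : VanishesToOrder (MvPolynomial.C a * F) p m := by
  intro k hk
  have := h k hk
  rw [map_mul, MvPolynomial.aeval_C, MvPolynomial.algebraMap_eq, homogeneousComponent_C_mul, this,
    mul_zero]

end Map

/-- clearing denominators. -/
theorem exists_clear {A L : Type*} [CommRing A] [IsDomain A] [Field L] [Algebra A L]
    [IsFractionRing A L] {σ : Type*} (F : MvPolynomial σ L) :
    ∃ (G : MvPolynomial σ A) (a : A), a ≠ 0 ∧
      MvPolynomial.map (algebraMap A L) G = MvPolynomial.C (algebraMap A L a) * F := by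
  classical
  obtain ⟨b, hb⟩ := IsLocalization.exist_integer_multiples_of_finset (nonZeroDivisors A)
    (F.support.image fun s => coeff s F)
  have hb' : ∀ s ∈ F.support, ∃ c : A, algebraMap A L c = algebraMap A L b * coeff s F := by
    intro s hs
    obtain ⟨c, hc⟩ := hb (coeff s F) (Finset.mem_image_of_mem _ hs)
    refine ⟨c, ?_⟩
    rw [hc]
    rw [Algebra.smul_def]
  choose! c hc using hb'
  refine ⟨∑ s ∈ F.support, monomial s (c s), b, nonZeroDivisors.coe_ne_zero b, ?_⟩
  rw [map_sum]
  conv_rhs => rw [F.as_sum]
  rw [Finset.mul_sum]
  refine Finset.sum_congr rfl fun s hs => ?_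
  rw [map_monomial, C_mul_monomial, hc s hs]

/-- **Core over a domain implies core over a field.** -/
theorem core_of_domain {r n m : ℕ} {A : Type} [CommRing A] [IsDomain A]
    (p : Fin r → Fin 2 → A)
    (H : ∀ F : MvPolynomial (Fin 2) A, F.totalDegree ≤ 3 * n →
      (∀ i, VanishesToOrder F (p i) m) → F = 0) :
    ∃ (L : Type) (_ : Field L) (q : Fin r → Fin 2 → L),
      ∀ F : MvPolynomial (Fin 2) L, F.totalDegree ≤ 3 * n →
        (∀ i, VanishesToOrder F (q i) m) → F = 0 := by
  have hinj : Function.Injective (algebraMap A (FractionRing A)) :=
    IsFractionRing.injective A (FractionRing A)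
  refine ⟨FractionRing A, inferInstance, fun i j => algebraMap A (FractionRing A) (p i j), ?_⟩
  · intro F hdeg hv
    obtain ⟨G, a, ha, hG⟩ := exists_clear (A := A) F
    have ha' : algebraMap A (FractionRing A) a ≠ 0 := by
      simpa using ha
    have hG0 : G = 0 := by
      apply H
      · have h1 : (MvPolynomial.map (algebraMap A (FractionRing A)) G).totalDegree =
            G.totalDegree := by
          unfold MvPolynomial.totalDegree
          rw [MvPolynomial.support_map_of_injective _ hinj]
        rw [← h1, hG]
        calc (MvPolynomial.C (algebraMap A (FractionRing A) a) * F).totalDegree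
            ≤ (MvPolynomial.C (σ := Fin 2) (algebraMap A (FractionRing A) a)).totalDegree +
                F.totalDegree := totalDegree_mul _ _
          _ ≤ 3 * n := by simpa using hdeg
      · intro i
        rw [← vanishesToOrder_map_iff _ hinj, hG]
        exact vanishesToOrder_C_mul _ _ _ _ (hv i)
    rw [hG0, map_zero] at hG
    have := hG.symm
    rw [mul_eq_zero] at this
    rcases this with h | h
    · exact absurd (by simpa using h) ha'
    · exact h

end Crest.Agent.R259.Asm
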