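import Mathlib

/-!
R259 (Nagata): the toric lemma (helper980).
-/

set_option autoImplicit false

open Finset

namespace Crest.Agent.R259.Tor

variable {A : Type*} [CommRing A]

/-- the polynomial `∑_{i ≤ N} c_i X^{N-i}` -/
noncomputable def P (c : ℕ → A) (N : ℕ) : Polynomial A :=
  ∑ i ∈ range (N + 1), Polynomial.C (c i) * Polynomial.X ^ (N - i)

theorem P_succ (c : ℕ → A) (N : ℕ) :
    P c (N + 1) = Polynomial.X * P c N + Polynomial.C (c (N + 1)) := by
  unfold P
  rw [sum_range_succ _ (N + 1), mul_sum]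
  congr 1
  · refine sum_congr rfl fun i hi => ?_
    rw [mem_range] at hi
    have : N + 1 - i = (N - i) + 1 := by omega
    rw [this, pow_succ]
    ring
  · simp

/-- partial sums -/
def S (c : ℕ → A) (i : ℕ) : A := ∑ l ∈ range (i + 1), c l

theorem P_eq (c : ℕ → A) (N : ℕ) :
    P c (N + 1) = (Polynomial.X - 1) * P (S c) N + Polynomial.C (S c (N + 1)) := by
  induction N with
  | zero =>
    rw [P_succ]
    simp [P, S, sum_range_succ]
    ring
  | succ N ih =>
    rw [P_succ, ih, P_succ (S c) N]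
    have : S c (N + 1 + 1) = S c (N + 1) + c (N + 1 + 1) := by
      unfold S; rw [sum_range_succ]
    rw [this, Polynomial.C_add]
    ring

theorem eval_one_P (c : ℕ → A) (N : ℕ) : (P c N).eval 1 = S c N := by
  unfold P S
  simp [Polynomial.eval_finsetSum]

theorem coeff_P (c : ℕ → A) {N i : ℕ} (hi : i ≤ N) : (P c N).coeff (N - i) = c i := by
  unfold P
  rw [Polynomial.finsetSum_coeff, sum_eq_single i]
  · simp
  · intro l hl hli
    rw [mem_range] at hl
    rw [Polynomial.coeff_C_mul, Polynomial.coeff_X_pow, if_neg, mul_zero]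
    omega
  · intro h
    rw [mem_range] at h
    omega

theorem taylor_mul_X_sub_one_pow (p : Polynomial A) (j : ℕ) :
    (Polynomial.taylor 1 ((Polynomial.X - 1) ^ j * p)).coeff j = p.eval 1 := by
  have h1 : Polynomial.taylor (1:A) (Polynomial.X - 1 : Polynomial A) = Polynomial.X := by
    simp [Polynomial.taylor_X]
  rw [Polynomial.taylor_mul, Polynomial.taylor_pow, h1]
  have := Polynomial.coeff_X_pow_mul (Polynomial.taylor 1 p) j 0
  rw [zero_add] at this
  rw [this, Polynomial.taylor_coeff_zero]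

/-! ### width of multiples of `∏ (T - z_a)^e` -/

section width

open Polynomial

variable {k : Type*} [Field k]

theorem coeff_mul_T (f : LaurentPolynomial k) (n x : ℤ) :
    (f * LaurentPolynomial.T n).coeff x = f.coeff (x - n) := by
  unfold LaurentPolynomial.T
  rw [AddMonoidAlgebra.coeff_mul_single_apply, mul_one, sub_eq_add_neg]

theorem coeff_toLaurent_nat (f : k[X]) (a : ℕ) : (toLaurent f).coeff (a : ℤ) = f.coeff a := by
  rw [LaurentPolynomial.coeff_toLaurent]
  exact Finsupp.mapDomain_apply Nat.cast_injective _ _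

theorem toLaurent_X_sub_C (z : k) :
    toLaurent (X - C z) = (LaurentPolynomial.T 1 - LaurentPolynomial.C z : LaurentPolynomial k) := by
  rw [map_sub, toLaurent_X, toLaurent_C]

/-- divisibility by `(T - z)^e`, `z ≠ 0`, in terms of ordinary polynomials -/
theorem dvd_of_dvd_laurent {z : k} (hz : z ≠ 0) {e N : ℕ} {σ : LaurentPolynomial k} {f : k[X]}
    (hf : toLaurent f = σ * LaurentPolynomial.T N)
    (hd : (LaurentPolynomial.T 1 - LaurentPolynomial.C z : LaurentPolynomial k) ^ e ∣ σ) :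
    (X - C z) ^ e ∣ f := by
  obtain ⟨g, hg⟩ := hd
  obtain ⟨M, g', hg'⟩ := LaurentPolynomial.exists_T_pow g
  have h1 : toLaurent (f * X ^ M) = toLaurent ((X - C z) ^ e * (g' * X ^ N)) := by
    simp only [map_mul, map_pow, toLaurent_X_sub_C, toLaurent_X, LaurentPolynomial.T_pow, mul_one,
      hf, hg', hg]
    ring
  have h2 := toLaurent_injective h1
  have hcop : IsCoprime ((X - C z) ^ e : k[X]) (X ^ M) := by
    apply IsCoprime.pow
    have h3 : IsCoprime (X - C z : k[X]) (X - C 0) :=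
      isCoprime_X_sub_C_of_isUnit_sub (by simpa using hz)
    simpa using h3
  exact hcop.dvd_of_dvd_mul_right (Dvd.intro _ h2.symm)

theorem width {r e : ℕ} (z : Fin r → k) (hz : Function.Injective z) (hz0 : ∀ a, z a ≠ 0)
    {σ : LaurentPolynomial k} (hσ : σ ≠ 0)
    (hd : ∀ a, (LaurentPolynomial.T 1 - LaurentPolynomial.C (z a) : LaurentPolynomial k) ^ e ∣ σ) :
    ∃ x y : ℤ, σ.coeff x ≠ 0 ∧ σ.coeff y ≠ 0 ∧ (r * e : ℤ) ≤ x - y := by
  obtain ⟨N, f, hf⟩ := LaurentPolynomial.exists_T_pow σ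
  have hf0 : f ≠ 0 := by
    rintro rfl
    rw [map_zero] at hf
    have h1 : σ * LaurentPolynomial.T N * LaurentPolynomial.T (-N) = 0 := by rw [← hf, zero_mul]
    rw [LaurentPolynomial.mul_T_assoc, add_neg_cancel, LaurentPolynomial.T_zero, mul_one] at h1
    exact hσ h1
  have hdf : ∀ a, (X - C (z a)) ^ e ∣ f := fun a => dvd_of_dvd_laurent (hz0 a) hf (hd a)
  set d := f.natTrailingDegree with hd'
  have hXd : (X ^ d : k[X]) ∣ f := X_pow_dvd_iff.2 fun j hj =>
    coeff_eq_zero_of_lt_natTrailingDegree hj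
  have hprod : ∏ a : Fin r, (X - C (z a)) ^ e ∣ f := by
    refine Finset.prod_dvd_of_coprime ?_ fun a _ => hdf a
    intro a _ b _ hab
    apply IsCoprime.pow
    exact isCoprime_X_sub_C_of_isUnit_sub
      (sub_ne_zero.2 (fun h => hab (hz h))).isUnit
  have hcop : IsCoprime (∏ a : Fin r, (X - C (z a)) ^ e) (X ^ d : k[X]) := by
    refine IsCoprime.prod_left fun a _ => ?_
    apply IsCoprime.pow
    have h3 : IsCoprime (X - C (z a) : k[X]) (X - C 0) :=
      isCoprime_X_sub_C_of_isUnit_sub (by simpa using hz0 a)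
    simpa using h3
  have hall := hcop.mul_dvd hprod hXd
  have hdeg := natDegree_le_of_dvd hall hf0
  have hm1 : (∏ a : Fin r, (X - C (z a)) ^ e).Monic :=
    monic_prod_of_monic _ _ fun a _ => (monic_X_sub_C _).pow _
  rw [hm1.natDegree_mul (monic_X_pow d), natDegree_X_pow,
    natDegree_prod_of_monic _ _ fun a _ => (monic_X_sub_C _).pow _] at hdeg
  simp only [natDegree_pow, natDegree_X_sub_C, mul_one, Finset.sum_const, Finset.card_univ,
    Fintype.card_fin, smul_eq_mul] at hdeg
  refine ⟨(f.natDegree : ℤ) - N, (d : ℤ) - N, ?_, ?_, ?_⟩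
  · rw [← coeff_mul_T, ← hf, coeff_toLaurent_nat]
    exact leadingCoeff_ne_zero.2 hf0
  · rw [← coeff_mul_T, ← hf, coeff_toLaurent_nat]
    exact trailingCoeff_nonzero_iff_nonzero.2 hf0
  · have : (r * e + d : ℤ) ≤ f.natDegree := by exact_mod_cast hdeg
    linarith

end width

/-! ### the toric lemma -/

section toric

variable {k : Type*} [Field k]

/-- the window at stage `j` -/
def Win (r n m j : ℕ) (c : ℕ → LaurentPolynomial k) (N : ℕ) : Prop :=
  ∀ i ≤ N, ∀ x : ℤ, (c i).coeff x ≠ 0 →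
    (-((r : ℤ) * m * i) < n * x ∨ (i = 0 ∧ 0 ≤ x)) ∧ (n : ℤ) * x ≤ (9 * n - r * m) * (i + j)

theorem coeff_S {c : ℕ → LaurentPolynomial k} {N : ℕ} {x : ℤ} (h : (S c N).coeff x ≠ 0) :
    ∃ i ≤ N, (c i).coeff x ≠ 0 := by
  unfold S at h
  by_contra hcon
  push Not at hcon
  apply h
  have : (∑ l ∈ range (N + 1), c l).coeff x = ∑ l ∈ range (N + 1), (c l).coeff x := by
    induction (range (N + 1)) using Finset.induction_on with
    | empty => simp
    | insert a s ha ih => rw [Finset.sum_insert ha, Finset.sum_insert ha]; simp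
  rw [this]
  exact Finset.sum_eq_zero fun l hl => hcon l (by rw [mem_range] at hl; omega)

variable {r n m : ℕ}

theorem rm_gt (hr : 10 ≤ r) (hm : 1 ≤ m) (hn : 1 ≤ n) (h : 9 * n ^ 2 ≤ r * m ^ 2) :
    (9 * n : ℤ) < r * m := by
  have h' : (9 * n ^ 2 : ℤ) ≤ r * m ^ 2 := by exact_mod_cast h
  have hr' : (10 : ℤ) ≤ r := by exact_mod_cast hr
  have hm' : (1 : ℤ) ≤ m := by exact_mod_cast hm
  have hn' : (1 : ℤ) ≤ n := by exact_mod_cast hn
  by_contra hcon
  push Not at hcon
  -- (r m)^2 ≤ 81 n^2 ≤ 9 r m^2 < (r m)^2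
  have h1 : ((r : ℤ) * m) ^ 2 ≤ (9 * n) ^ 2 := by
    apply pow_le_pow_left₀ (by positivity) hcon
  nlinarith [mul_pos (show (0:ℤ) < r by linarith) (pow_pos (show (0:ℤ) < m by linarith) 2)]

/-- bounds of a point of the stage `j` window -/
theorem win_bounds (hr : 10 ≤ r) (hm : 1 ≤ m) (hn : 1 ≤ n) (h : 9 * n ^ 2 ≤ r * m ^ 2)
    {c : ℕ → LaurentPolynomial k} {j : ℕ} (hj : 1 ≤ j) (hjn : j ≤ n) (hw : Win r n m j c (n - j))
    {i : ℕ} (hi : i ≤ n - j) {x : ℤ} (hx : (c i).coeff x ≠ 0) :
    (9 * (n:ℤ) ^ 2 * x < - ((r * m - 9 * n) * j * (r * m))) ∧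
      (-(9 * n * (r * m) * (n - j) : ℤ) < 9 * (n:ℤ) ^ 2 * x) := by
  have hD := rm_gt hr hm hn h
  obtain ⟨h1, h2⟩ := hw i hi x hx
  have hj' : (1 : ℤ) ≤ j := by exact_mod_cast hj
  have hn' : (1 : ℤ) ≤ n := by exact_mod_cast hn
  have hi0 : (0 : ℤ) ≤ i := Int.natCast_nonneg i
  have hi' : (i : ℤ) ≤ n - j := by
    have : i + j ≤ n := by omega
    have : (i : ℤ) + j ≤ n := by exact_mod_cast this
    linarith
  set D : ℤ := r * m - 9 * n with hDdef
  have hDpos : 0 < D := by rw [hDdef]; linarith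
  have hrm : (r : ℤ) * m = D + 9 * n := by rw [hDdef]; ring
  have h2' : (n : ℤ) * x ≤ -(D * (i + j)) := by
    have : ((9:ℤ) * n - r * m) = -D := by rw [hDdef]; ring
    rw [this] at h2
    linarith
  have h1' : -((D + 9 * n) * i) < (n : ℤ) * x := by
    rcases h1 with h1 | ⟨h1, h3⟩
    · rw [hrm] at h1; linarith
    · exfalso
      have h4 : (0 : ℤ) ≤ n * x := by positivity
      have h5 : 0 < D * (i + j) := by positivity
      linarith
  -- D j < 9 n i
  have h3 : D * j < 9 * n * i := by nlinarith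
  rw [hrm]
  constructor
  · -- 9 n² x ≤ -9 n D (i + j) < - D (D j + 9 n j)
    have h4 : 9 * (n:ℤ) ^ 2 * x ≤ -(9 * n * (D * (i + j))) := by
      have := mul_le_mul_of_nonneg_left h2' (show (0:ℤ) ≤ 9 * n by positivity)
      nlinarith
    have h5 : D * (D * j) < D * (9 * n * i) := mul_lt_mul_of_pos_left h3 hDpos
    nlinarith
  · have h6 : (9:ℤ) * n * (-((D + 9 * n) * i)) < 9 * n * (n * x) :=
      mul_lt_mul_of_pos_left h1' (by positivity)
    have h7 : (9:ℤ) * n * ((D + 9 * n) * i) ≤ 9 * n * ((D + 9 * n) * (n - j)) := by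
      apply mul_le_mul_of_nonneg_left _ (by positivity)
      exact mul_le_mul_of_nonneg_left hi' (by positivity)
    nlinarith

/-- the partial sums vanish at every stage -/
theorem sum_eq_zero_of_win (hr : 10 ≤ r) (hm : 1 ≤ m) (hn : 1 ≤ n) (h : 9 * n ^ 2 ≤ r * m ^ 2)
    (z : Fin r → k) (hz : Function.Injective z) (hz0 : ∀ a, z a ≠ 0)
    {c : ℕ → LaurentPolynomial k} {j : ℕ} (hjm : j < m) (hjn : j ≤ n)
    (hw : Win r n m j c (n - j))
    (hd : ∀ a, (LaurentPolynomial.T 1 - LaurentPolynomial.C (z a) : LaurentPolynomial k) ^ (m - j)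
      ∣ S c (n - j)) : S c (n - j) = 0 := by
  by_contra hne
  obtain ⟨x, y, hx, hy, hxy⟩ := width z hz hz0 hne hd
  obtain ⟨i, hi, hxi⟩ := coeff_S hx
  obtain ⟨i', hi', hyi⟩ := coeff_S hy
  have hD := rm_gt hr hm hn h
  have hn' : (1 : ℤ) ≤ n := by exact_mod_cast hn
  have hr' : (10 : ℤ) ≤ r := by exact_mod_cast hr
  have hmj : ((m - j : ℕ) : ℤ) = m - j := by
    rw [Nat.cast_sub hjm.le]
  rw [hmj] at hxy
  have h' : (9 * n ^ 2 : ℤ) ≤ r * m ^ 2 := by exact_mod_cast h
  rcases Nat.eq_zero_or_pos j with rfl | hj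
  · -- stage 0
    obtain ⟨-, hx2⟩ := hw i hi x hxi
    obtain ⟨hy1, -⟩ := hw i' hi' y hyi
    simp only [Nat.cast_zero, add_zero, sub_zero] at hx2 hxy
    have hi0 : (0 : ℤ) ≤ i := Int.natCast_nonneg i
    have hx3 : (n : ℤ) * x ≤ 0 := by nlinarith
    have hi'n : (i' : ℤ) ≤ n := by
      have : i' ≤ n := by omega
      exact_mod_cast this
    have hrm0 : (0 : ℤ) < r * m := by linarith
    have hy3 : -((r : ℤ) * m * n) < n * y := by
      rcases hy1 with h1 | ⟨h1, h2⟩
      · have : (r : ℤ) * m * i' ≤ r * m * n := mul_le_mul_of_nonneg_left hi'n hrm0.le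
        linarith
      · have h3 : (0 : ℤ) ≤ n * y := by positivity
        have h4 : (0 : ℤ) < r * m * n := by positivity
        linarith
    have h5 : (n : ℤ) * (r * m) ≤ n * (x - y) := mul_le_mul_of_nonneg_left hxy (by linarith)
    nlinarith
  · obtain ⟨b1, -⟩ := win_bounds hr hm hn h hj hjn hw hi hxi
    obtain ⟨-, b2⟩ := win_bounds hr hm hn h hj hjn hw hi' hyi
    have hj' : (1 : ℤ) ≤ j := by exact_mod_cast hj
    have h5 : 9 * (n:ℤ) ^ 2 * (r * (m - j)) ≤ 9 * (n:ℤ) ^ 2 * (x - y) :=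
      mul_le_mul_of_nonneg_left hxy (by positivity)
    -- 9 n² (x - y) < r m (9 n² - r m j)
    have h6 : 9 * (n:ℤ) ^ 2 * (x - y) < (r * m) * (9 * n ^ 2 - r * m * j) := by nlinarith
    have h7 : (r * j : ℤ) * (9 * n ^ 2) ≤ (r * j : ℤ) * (r * m ^ 2) :=
      mul_le_mul_of_nonneg_left h' (by positivity)
    nlinarith

/-- one step of the induction -/
theorem win_step (hr : 10 ≤ r) (hm : 1 ≤ m) (hn : 1 ≤ n) (h : 9 * n ^ 2 ≤ r * m ^ 2)
    {c : ℕ → LaurentPolynomial k} {j N : ℕ} (hw : Win r n m j c (N + 1))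
    (h0 : S c (N + 1) = 0) : Win r n m (j + 1) (S c) N := by
  have hD := rm_gt hr hm hn h
  intro i hi x hx
  have hrm0 : (0 : ℤ) < r * m := by
    have hn' : (1 : ℤ) ≤ n := by exact_mod_cast hn
    linarith
  constructor
  · obtain ⟨l, hl, hxl⟩ := coeff_S hx
    obtain ⟨h1, -⟩ := hw l (by omega) x hxl
    rcases h1 with h1 | ⟨h1, h2⟩
    · left
      have : (r : ℤ) * m * l ≤ r * m * i :=
        mul_le_mul_of_nonneg_left (by exact_mod_cast hl) hrm0.le
      linarith
    · rcases Nat.eq_zero_or_pos i with hi0 | hi0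
      · exact Or.inr ⟨hi0, h2⟩
      · left
        have h3 : (0 : ℤ) ≤ n * x := by positivity
        have hi0' : (0 : ℤ) < i := by exact_mod_cast hi0
        have : (0 : ℤ) < r * m * i := mul_pos hrm0 hi0'
        linarith
  · -- S c i = - ∑_{l > i} c l
    have h3 : S c i = - ∑ l ∈ Finset.Ico (i + 1) (N + 2), c l := by
      have h4 : S c i + ∑ l ∈ Finset.Ico (i + 1) (N + 2), c l = S c (N + 1) := by
        unfold S
        rw [Finset.sum_range_add_sum_Ico _ (by omega)]
      rw [h0] at h4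
      exact eq_neg_of_add_eq_zero_left h4
    have h5 : ∃ l ∈ Finset.Ico (i + 1) (N + 2), (c l).coeff x ≠ 0 := by
      by_contra hcon
      push Not at hcon
      apply hx
      have h6 : (∑ l ∈ Finset.Ico (i + 1) (N + 2), c l).coeff x
          = ∑ l ∈ Finset.Ico (i + 1) (N + 2), (c l).coeff x := by
        induction (Finset.Ico (i + 1) (N + 2)) using Finset.induction_on with
        | empty => simp
        | insert a s ha ih => rw [Finset.sum_insert ha, Finset.sum_insert ha]; simp
      rw [h3]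
      have h7 : (-∑ l ∈ Finset.Ico (i + 1) (N + 2), c l).coeff x
          = - (∑ l ∈ Finset.Ico (i + 1) (N + 2), c l).coeff x := by simp
      rw [h7, h6, Finset.sum_eq_zero hcon, neg_zero]
    obtain ⟨l, hl, hxl⟩ := h5
    rw [Finset.mem_Ico] at hl
    obtain ⟨-, h2⟩ := hw l (by omega) x hxl
    refine h2.trans ?_
    have h8 : (i : ℤ) + 1 ≤ l := by exact_mod_cast hl.1
    push_cast
    nlinarith

/-- **Toric lemma.** -/
theorem toric (hr : 10 ≤ r) (hm : 1 ≤ m) (hn : 1 ≤ n) (h : 9 * n ^ 2 ≤ r * m ^ 2)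
    (z : Fin r → k) (hz : Function.Injective z) (hz0 : ∀ a, z a ≠ 0)
    (c : ℕ → LaurentPolynomial k)
    (hlo : ∀ i ≤ n, ∀ x : ℤ, (c i).coeff x ≠ 0 → -((r : ℤ) * m * i) < n * x ∨ (i = 0 ∧ 0 ≤ x))
    (hhi : ∀ i ≤ n, ∀ x : ℤ, (c i).coeff x ≠ 0 → (n : ℤ) * x ≤ (9 * n - r * m) * i)
    (hdiv : ∀ l < m, ∀ a, (LaurentPolynomial.T 1 - LaurentPolynomial.C (z a) :
      LaurentPolynomial k) ^ (m - l) ∣ (Polynomial.taylor 1 (P c n)).coeff l) :
    ∀ i ≤ n, c i = 0 := by
  -- the induction
  have key : ∀ j, j ≤ m → j ≤ n → ∃ c' : ℕ → LaurentPolynomial k,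
      P c n = (Polynomial.X - 1) ^ j * P c' (n - j) ∧ Win r n m j c' (n - j) := by
    intro j
    induction j with
    | zero =>
      intro _ _
      refine ⟨c, by simp, fun i hi x hx => ⟨hlo i (by omega) x hx, ?_⟩⟩
      have := hhi i (by omega) x hx
      simpa using this
    | succ j ih =>
      intro hjm hjn
      obtain ⟨c', hc', hw⟩ := ih (by omega) (by omega)
      have hσ : S c' (n - j) = 0 := by
        refine sum_eq_zero_of_win hr hm hn h z hz hz0 (by omega) (by omega) hw fun a => ?_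
        have := hdiv j (by omega) a
        rw [hc', taylor_mul_X_sub_one_pow, eval_one_P] at this
        exact this
      have hN : n - j = (n - (j + 1)) + 1 := by omega
      rw [hN] at hc' hw hσ
      refine ⟨S c', ?_, win_step hr hm hn h hw hσ⟩
      rw [hc', P_eq, hσ, Polynomial.C_0, add_zero, pow_succ]
      ring
  -- the end
  have hP : P c n = 0 := by
    rcases le_total m n with hmn | hmn
    · obtain ⟨c', hc', hw⟩ := key m le_rfl hmn
      have h0 : ∀ i ≤ n - m, c' i = 0 := by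
        intro i hi
        by_contra hne
        obtain ⟨x, hx⟩ : ∃ x, (c' i).coeff x ≠ 0 := by
          by_contra hcon
          push Not at hcon
          exact hne (LaurentPolynomial.ext fun a => by simpa using hcon a)
        obtain ⟨b1, b2⟩ := win_bounds hr hm hn h hm hmn hw hi hx
        have hD := rm_gt hr hm hn h
        have h' : (9 * n ^ 2 : ℤ) ≤ r * m ^ 2 := by exact_mod_cast h
        have hrm0 : (0 : ℤ) < r * m := by
          have hn' : (1 : ℤ) ≤ n := by exact_mod_cast hn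
          linarith
        have h9 : (r * m : ℤ) * ((r * m - 9 * n) * m) < (r * m) * (9 * n * (n - m)) := by nlinarith
        have h10 := lt_of_mul_lt_mul_left h9 hrm0.le
        nlinarith
      rw [hc']
      have : P c' (n - m) = 0 := by
        unfold P
        refine sum_eq_zero fun i hi => ?_
        rw [mem_range] at hi
        rw [h0 i (by omega)]
        simp
      rw [this, mul_zero]
    · obtain ⟨c', hc', hw⟩ := key n hmn le_rfl
      have h0 : c' 0 = 0 := by
        by_contra hne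
        obtain ⟨x, hx⟩ : ∃ x, (c' 0).coeff x ≠ 0 := by
          by_contra hcon
          push Not at hcon
          exact hne (LaurentPolynomial.ext fun a => by simpa using hcon a)
        obtain ⟨h1, h2⟩ := hw 0 (by omega) x hx
        have hD := rm_gt hr hm hn h
        have hn' : (1 : ℤ) ≤ n := by exact_mod_cast hn
        have h3 : (n : ℤ) * x < 0 := by
          push_cast at h2
          nlinarith
        rcases h1 with h1 | ⟨-, h1⟩
        · push_cast at h1
          linarith
        · have : (0 : ℤ) ≤ n * x := by positivity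
          linarith
      rw [hc']
      have : P c' (n - n) = 0 := by
        unfold P
        rw [Nat.sub_self, sum_range_one, h0]
        simp
      rw [this, mul_zero]
  intro i hi
  rw [← coeff_P c hi, hP]
  simp

end toric

end Crest.Agent.R259.Tor
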