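import Mathlib
import Crest.Agent.R259.Theta
import Crest.Agent.R259.Tor

/-!
R259 (Nagata), end of the assembly: from the divisibility of the `(v-1)`-adic coefficients over
`k[z,1/z][[t]]` to the `t^s`-coefficients, window lemma and toric lemma.
-/

set_option autoImplicit false

open Polynomial

namespace Crest.Agent.R259.Asm

section Taylor

variable {R : Type*} [CommRing R]

/-- The polynomial `∑_{i ≤ n} c_i X^(n-i)` (= `Tor.P c n`). -/
theorem taylor_P_coeff (n : ℕ) (c : ℕ → R) (l : ℕ) :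
    (taylor 1 (Tor.P c n)).coeff l =
      ∑ i ∈ Finset.range (n + 1), c i * ((n - i).choose l : R) := by
  rw [Tor.P, map_sum, finsetSum_coeff]
  refine Finset.sum_congr rfl fun i _ => ?_
  rw [taylor_mul, taylor_C, coeff_C_mul, taylor_coeff]
  congr 1
  rw [← monomial_one_right_eq_X_pow, hasseDeriv_monomial]
  simp

theorem taylor_P_eq (n : ℕ) (c : ℕ → R) :
    taylor 1 (Tor.P c n) = ∑ i ∈ Finset.range (n + 1), C (c i) * (1 + X) ^ (n - i) := by
  rw [Tor.P, map_sum]
  refine Finset.sum_congr rfl fun i _ => ?_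
  rw [taylor_mul, taylor_C, taylor_pow, taylor_X, C_1, add_comm X 1]

end Taylor

section Coeff

variable {Λ : Type*} [CommRing Λ]

theorem coeff_dvd_of_C_pow_dvd (a : Λ) (e : ℕ) (f : PowerSeries Λ)
    (h : (PowerSeries.C a) ^ e ∣ f) (s : ℕ) : a ^ e ∣ PowerSeries.coeff s f := by
  obtain ⟨q, rfl⟩ := h
  rw [← map_pow, PowerSeries.coeff_C_mul]
  exact dvd_mul_right _ _

/-- the `t^s`-coefficient of the `(v-1)`-adic coefficients. -/
theorem coeff_taylor_P (n : ℕ) (c : ℕ → PowerSeries Λ) (l s : ℕ) :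
    PowerSeries.coeff s ((taylor 1 (Tor.P c n)).coeff l) =
      (taylor 1 (Tor.P (fun i => PowerSeries.coeff s (c i)) n)).coeff l := by
  rw [taylor_P_coeff, taylor_P_coeff, map_sum]
  refine Finset.sum_congr rfl fun i _ => ?_
  have : (((n - i).choose l : ℕ) : PowerSeries Λ) =
      PowerSeries.C (((n - i).choose l : ℕ) : Λ) := by simp
  rw [this, PowerSeries.coeff_mul_C]

end Coeff

section End

open scoped LaurentPolynomial in
/-- **End of the assembly.** -/
theorem asm_end {k : Type*} [Field k] {r n m : ℕ} (hr : 10 ≤ r) (hn : 1 ≤ n) (hm : 1 ≤ m)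
    (h : 9 * n ^ 2 ≤ r * m ^ 2) (z : Fin r → k) (hz : Function.Injective z) (hz0 : ∀ j, z j ≠ 0)
    (c : ℕ → RR k)
    (hQP : ∀ i ≤ n, QP (6 * (n : ℤ) ^ 2) (2 * n * r * m - 1) (3 * i) (c i))
    (hdvd : ∀ j l, (PowerSeries.C (LaurentPolynomial.T 1 - LaurentPolynomial.C (z j)) : RR k)
        ^ (m - l) ∣
      (∑ i ∈ Finset.range (n + 1), C (c i) * (1 + X) ^ (n - i) : (RR k)[X]).coeff l) :
    ∀ i ≤ n, c i = 0 := by
  have key : ∀ s : ℕ, ∀ i ≤ n, PowerSeries.coeff s (c i) = 0 := by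
    intro s
    induction s using Nat.strong_induction_on with
    | _ s ih =>
      have win : ∀ i ≤ n, ∀ x : ℤ, (PowerSeries.coeff s (c i)).coeff x ≠ 0 →
          (i = 0 → x = 0) ∧ (1 ≤ i → -((r : ℤ) * m * i) < n * x) ∧
            (n : ℤ) * x ≤ (9 * n - r * m) * i := fun i hi x hx =>
        window_int hn hi (hQP i hi) (fun s' hs' => ih s' hs' i hi) hx
      refine Tor.toric hr hm hn h z hz hz0 (fun i => PowerSeries.coeff s (c i)) ?_ ?_ ?_
      · intro i hi x hx
        obtain ⟨h1, h2, -⟩ := win i hi x hx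
        rcases Nat.eq_zero_or_pos i with h0 | h0
        · exact Or.inr ⟨h0, (h1 h0).ge⟩
        · exact Or.inl (h2 h0)
      · intro i hi x hx
        exact (win i hi x hx).2.2
      · intro l _ j
        rw [← coeff_taylor_P, taylor_P_eq]
        exact coeff_dvd_of_C_pow_dvd _ _ _ (hdvd j l) s
  intro i hi
  ext1 s
  simpa using key s i hi

end End

end Crest.Agent.R259.Asm
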