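import Mathlib
import Crest.Agent.R259.Theta

/-!
R259 (Nagata): evaluation of `k[z,1/z][[t]]` at a point `z = z_j ∈ k*`.
-/

set_option autoImplicit false

open scoped LaurentPolynomial
open LaurentPolynomial

namespace Crest.Agent.R259.Asm

noncomputable section

variable {k : Type*} [Field k]

/-- Mathlib's algebra structure is the embedding of the theta block. -/
theorem algebraMap_eq_emb : algebraMap (PowerSeries k) (RR k) = emb := rfl

/-- evaluation of a Laurent polynomial at a unit -/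
def evL (z : kˣ) : k[T;T⁻¹] →+* k := LaurentPolynomial.eval₂ (RingHom.id k) z

theorem evL_C (z : kˣ) (a : k) : evL z (C a) = a := by
  simp [evL]

theorem evL_T (z : kˣ) (n : ℤ) : evL z (T n) = ((z ^ n : kˣ) : k) := by
  simp [evL]

theorem T_sub_dvd (z : kˣ) (n : ℕ) :
    (T 1 - C (z : k) : k[T;T⁻¹]) ∣ T n - C ((z ^ n : kˣ) : k) := by
  have h := sub_dvd_pow_sub_pow (T 1 : k[T;T⁻¹]) (C (z : k)) n
  rw [T_pow, ← map_pow] at h
  simpa using h

theorem T_sub_dvd_neg (z : kˣ) (n : ℕ) :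
    (T 1 - C (z : k) : k[T;T⁻¹]) ∣ T (-n) - C ((z ^ (-n : ℤ) : kˣ) : k) := by
  obtain ⟨q, hq⟩ := T_sub_dvd z n
  refine ⟨-(T (-n) * C ((z ^ (-n : ℤ) : kˣ) : k)) * q, ?_⟩
  have h1 : (T (-n) : k[T;T⁻¹]) * T n = 1 := by
    rw [← T_add]; simp
  have h2 : (C ((z ^ (-n : ℤ) : kˣ) : k) : k[T;T⁻¹]) * C ((z ^ n : kˣ) : k) = 1 := by
    rw [← map_mul, ← Units.val_mul]
    simp
  calc (T (-n) : k[T;T⁻¹]) - C ((z ^ (-n : ℤ) : kˣ) : k)
      = -(T (-n) * C ((z ^ (-n : ℤ) : kˣ) : k)) * (T n - C ((z ^ n : kˣ) : k)) := by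
        linear_combination (C ((z ^ (-n : ℤ) : kˣ) : k) : k[T;T⁻¹]) * h1
          - (T (-n) : k[T;T⁻¹]) * h2
    _ = _ := by rw [hq]; ring

theorem sub_evL_dvd (z : kˣ) (f : k[T;T⁻¹]) :
    (T 1 - C (z : k) : k[T;T⁻¹]) ∣ f - C (evL z f) := by
  induction f using LaurentPolynomial.induction_on' with
  | add p q hp hq =>
    have : p + q - C (evL z (p + q)) = (p - C (evL z p)) + (q - C (evL z q)) := by
      rw [map_add, map_add]; ring
    rw [this]
    exact dvd_add hp hq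
  | C_mul_T n a =>
    have : C a * T n - C (evL z (C a * T n)) = C a * (T n - C ((z ^ n : kˣ) : k)) := by
      rw [map_mul, evL_C, evL_T, map_mul]; ring
    rw [this]
    refine Dvd.dvd.mul_left ?_ _
    rcases Int.eq_nat_or_neg n with ⟨m, rfl | rfl⟩
    · exact T_sub_dvd z m
    · exact T_sub_dvd_neg z m

/-- evaluation at `z` on `k[z,1/z][[t]]` -/
def evR (z : kˣ) : RR k →+* PowerSeries k := PowerSeries.map (evL z)

theorem sub_evR_dvd (z : kˣ) (f : RR k) :
    (PowerSeries.C (T 1 - C (z : k)) : RR k) ∣ f - algebraMap (PowerSeries k) (RR k) (evR z f) := by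
  choose q hq using fun g : k[T;T⁻¹] => sub_evL_dvd z g
  refine ⟨PowerSeries.mk fun s => q (PowerSeries.coeff s f), ?_⟩
  ext1 s
  rw [PowerSeries.coeff_C_mul, PowerSeries.coeff_mk, ← hq, map_sub, algebraMap_eq_emb]
  simp [emb, evR]

end

end Crest.Agent.R259.Asm
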