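/-
R259 (Nagata), assembly part 1: purely algebraic facts about the substitution
Phi : A[x,y] -> R[V][eps],  x -> x(z),  y -> y(z) + eps (1+V) h.
-/
import Mathlib
import Crest.Prelude.Def_VanishingOrder

set_option autoImplicit false

namespace Crest.Agent.R259.Assembly

open Polynomial

section JJ

variable {R : Type*} [CommRing R]

/-- `JJ ζ m W`: every `ε`-coefficient of `W` lies in the ideal `(ζ, V)^m` of `R[V]`. -/
def JJ (ζ : R) (m : ℕ) (W : R[X][X]) : Prop := ∀ k l, ζ ^ (m - l) ∣ (W.coeff k).coeff l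

lemma JJ.zero (ζ : R) (m : ℕ) : JJ ζ m 0 := by
  intro k l; simp

lemma JJ.add {ζ : R} {m : ℕ} {W W' : R[X][X]} (h : JJ ζ m W) (h' : JJ ζ m W') :
    JJ ζ m (W + W') := by
  intro k l
  rw [coeff_add, coeff_add]
  exact dvd_add (h k l) (h' k l)

lemma JJ.sum {ζ : R} {m : ℕ} {ι : Type*} (s : Finset ι) (W : ι → R[X][X])
    (h : ∀ i ∈ s, JJ ζ m (W i)) : JJ ζ m (∑ i ∈ s, W i) := by
  classical
  induction s using Finset.induction_on with
  | empty => simpa using JJ.zero ζ m
  | insert a s ha ih =>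
    rw [Finset.sum_insert ha]
    exact (h a (Finset.mem_insert_self _ _)).add
      (ih fun i hi => h i (Finset.mem_insert_of_mem hi))

lemma JJ.mul {ζ : R} {a b : ℕ} {W W' : R[X][X]} (h : JJ ζ a W) (h' : JJ ζ b W') :
    JJ ζ (a + b) (W * W') := by
  intro k l
  rw [coeff_mul, finsetSum_coeff]
  refine Finset.dvd_sum fun p hp => ?_
  rw [coeff_mul]
  refine Finset.dvd_sum fun q hq => ?_
  have hq' : q.1 + q.2 = l := Finset.HasAntidiagonal.mem_antidiagonal.mp hq
  have h1 : ζ ^ ((a - q.1) + (b - q.2)) ∣ (W.coeff p.1).coeff q.1 * (W'.coeff p.2).coeff q.2 := by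
    rw [pow_add]
    exact mul_dvd_mul (h _ _) (h' _ _)
  exact (pow_dvd_pow ζ (by omega)).trans h1

lemma JJ.of_zero (ζ : R) (W : R[X][X]) : JJ ζ 0 W := by
  intro k l; simp

lemma JJ.mono {ζ : R} {a b : ℕ} (hab : a ≤ b) {W : R[X][X]} (h : JJ ζ b W) : JJ ζ a W := by
  intro k l
  exact (pow_dvd_pow ζ (by omega)).trans (h k l)

lemma JJ.mul_left {ζ : R} {m : ℕ} {W : R[X][X]} (U : R[X][X]) (h : JJ ζ m W) :
    JJ ζ m (U * W) := by
  have := (JJ.of_zero ζ U).mul h
  rwa [zero_add] at this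

lemma JJ.pow {ζ : R} {a : ℕ} {W : R[X][X]} (h : JJ ζ a W) (n : ℕ) :
    JJ ζ (n * a) (W ^ n) := by
  induction n with
  | zero => simpa using JJ.of_zero ζ 1
  | succ n ih =>
    rw [pow_succ]
    have := ih.mul h
    rwa [← Nat.succ_mul] at this

end JJ

section Phi

variable {O R : Type*} [CommRing O] [CommRing R] [Algebra O R]

/-- coefficient embedding `O[ε] → R[V][ε]`. -/
noncomputable def phi : O[X] →+* R[X][X] :=
  Polynomial.mapRingHom (Polynomial.C.comp (algebraMap O R))

/-- the images of the two variables. -/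
noncomputable def img (x y h : R) : Fin 2 → R[X][X] :=
  ![C (C x), C (C y) + X * C ((1 + X) * C h)]

/-- the substitution `x ↦ x`, `y ↦ y + ε (1+V) h`. -/
noncomputable def Phi (x y h : R) : MvPolynomial (Fin 2) O[X] →+* R[X][X] :=
  MvPolynomial.eval₂Hom (phi (O := O) (R := R)) (img x y h)

/-- the point `(ev x, ev y + ε ev h)`. -/
noncomputable def pt (ev : R →+* O) (x y h : R) : Fin 2 → O[X] :=
  ![C (ev x), C (ev y) + X * C (ev h)]

lemma JJ_img (ζ : R) (ev : R →+* O) (hev : ∀ a : R, ζ ∣ a - algebraMap O R (ev a))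
    (x y h : R) (i : Fin 2) :
    JJ ζ 1 (img x y h i - phi (pt ev x y h i)) := by
  have hphiC : ∀ a : O, phi (R := R) (C a) = C (C (algebraMap O R a)) := by
    intro a; simp [phi]
  have hphiX : phi (O := O) (R := R) X = X := by simp [phi]
  fin_cases i
  · intro k l
    simp only [img, pt, Fin.zero_eta, Matrix.cons_val_zero, hphiC]
    rw [← C_sub, ← C_sub, coeff_C]
    split_ifs with hk
    · rw [coeff_C]
      split_ifs with hl
      · subst hl; simpa using hev x
      · simp
    · simp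
  · have e : img x y h 1 - phi (pt ev x y h 1) =
        C (C (y - algebraMap O R (ev y))) + X * C (C (h - algebraMap O R (ev h)))
          + X * C (X * C h) := by
      simp only [img, pt, Matrix.cons_val_one, Matrix.cons_val_fin_one, map_add, map_mul, hphiC,
        hphiX, C_sub]
      simp only [map_one]
      ring
    simp only [Fin.mk_one, e]
    refine JJ.add (JJ.add ?_ ?_) ?_
    · intro k l
      rw [coeff_C]
      split_ifs with hk
      · rw [coeff_C]
        split_ifs with hl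
        · subst hl; simpa using hev y
        · simp
      · simp
    · refine JJ.mul_left _ ?_
      intro k l
      rw [coeff_C]
      split_ifs with hk
      · rw [coeff_C]
        split_ifs with hl
        · subst hl; simpa using hev h
        · simp
      · simp
    · refine JJ.mul_left _ ?_
      intro k l
      rw [coeff_C]
      split_ifs with hk
      · rcases Nat.eq_zero_or_pos l with hl | hl
        · subst hl; simp
        · rw [Nat.sub_eq_zero_of_le hl]; simp
      · simp

/-- Vanishing to order `m` at the point gives membership in `(ζ, V)^m`. -/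
lemma JJ_Phi (ζ : R) (ev : R →+* O) (hev : ∀ a : R, ζ ∣ a - algebraMap O R (ev a))
    (x y h : R) (m : ℕ) (F : MvPolynomial (Fin 2) O[X])
    (hF : Crest.AlgGeometry.VanishesToOrder F (pt ev x y h) m) :
    JJ ζ m (Phi x y h F) := by
  classical
  set p := pt ev x y h with hp
  set G : MvPolynomial (Fin 2) O[X] :=
    MvPolynomial.aeval (fun j => MvPolynomial.X j + MvPolynomial.C (p j)) F with hG
  have hPhi : Phi x y h F =
      MvPolynomial.eval₂Hom (phi (O := O) (R := R)) (fun i => img x y h i - phi (p i)) G := by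
    rw [hG]
    have : (MvPolynomial.eval₂Hom (phi (O := O) (R := R)) (fun i => img x y h i - phi (p i))).comp
        ((MvPolynomial.aeval (R := O[X]) (fun j => MvPolynomial.X j + MvPolynomial.C (p j)) :
          MvPolynomial (Fin 2) O[X] →ₐ[O[X]] MvPolynomial (Fin 2) O[X]) :
            MvPolynomial (Fin 2) O[X] →+* MvPolynomial (Fin 2) O[X]) = Phi x y h := by
      apply MvPolynomial.ringHom_ext
      · intro r
        simp [Phi]
      · intro i
        simp [Phi]
    rw [← this]
    rfl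
  have hcoeff : ∀ s : Fin 2 →₀ ℕ, s.degree < m → G.coeff s = 0 := by
    intro s hs
    have := hF s.degree hs
    have h2 := congrArg (MvPolynomial.coeff s) this
    rw [MvPolynomial.coeff_homogeneousComponent, if_pos rfl, MvPolynomial.coeff_zero] at h2
    exact h2
  rw [hPhi, MvPolynomial.coe_eval₂Hom, MvPolynomial.eval₂_eq']
  refine JJ.sum _ _ fun s hs => ?_
  have hsm : m ≤ s.degree := by
    by_contra hlt
    push Not at hlt
    exact (MvPolynomial.mem_support_iff.mp hs) (hcoeff s hlt)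
  refine JJ.mul_left _ ?_
  rw [Fin.prod_univ_two]
  have h0 := (JJ_img ζ ev hev x y h 0).pow (s 0)
  have h1 := (JJ_img ζ ev hev x y h 1).pow (s 1)
  refine JJ.mono ?_ (h0.mul h1)
  have : s.degree = s 0 + s 1 := by
    rw [Finsupp.degree_eq_sum]
    simp [Fin.sum_univ_two]
  omega

end Phi


section Gadic

variable {A : Type*} [CommRing A]

/-- the cubic `g = x y - τ0 x^3 - τ1 - τ2 y^3`. -/
noncomputable def gpoly (t0 t1 t2 : A) : MvPolynomial (Fin 2) A :=
  MvPolynomial.X 0 * MvPolynomial.X 1 - MvPolynomial.C t0 * MvPolynomial.X 0 ^ 3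
    - MvPolynomial.C t1 - MvPolynomial.C t2 * MvPolynomial.X 1 ^ 3

/-- the index set of the `g`-adic expansion. -/
def idx (D : ℕ) : Finset (ℕ × ℕ × ℕ) :=
  (Finset.range (D+1) ×ˢ Finset.range 3 ×ˢ Finset.range (D+1)).filter
    (fun p => p.2.1 + p.2.2 + 3 * p.1 ≤ D)

lemma mem_idx {D : ℕ} {l a b : ℕ} : (l, a, b) ∈ idx D ↔ a < 3 ∧ a + b + 3 * l ≤ D := by
  simp only [idx, Finset.mem_filter, Finset.mem_product, Finset.mem_range]
  constructor
  · rintro ⟨⟨h1, h2, h3⟩, h4⟩
    exact ⟨h2, h4⟩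
  · rintro ⟨h1, h2⟩
    refine ⟨⟨?_, h1, ?_⟩, h2⟩ <;> omega

/-- basis elements `g^l x^a y^b`. -/
noncomputable def bas (t0 t1 t2 : A) (p : ℕ × ℕ × ℕ) : MvPolynomial (Fin 2) A :=
  gpoly t0 t1 t2 ^ p.1 * (MvPolynomial.X 0 ^ p.2.1 * MvPolynomial.X 1 ^ p.2.2)

lemma span_mono_g (t0 t1 t2 : A) {D D' : ℕ} (h : D + 3 ≤ D') {q : MvPolynomial (Fin 2) A}
    (hq : q ∈ Submodule.span A (bas t0 t1 t2 '' (idx D : Set (ℕ × ℕ × ℕ)))) :
    gpoly t0 t1 t2 * q ∈ Submodule.span A (bas t0 t1 t2 '' (idx D' : Set (ℕ × ℕ × ℕ))) := by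
  induction hq using Submodule.span_induction with
  | mem x hx =>
    obtain ⟨⟨l, a, b⟩, hp, rfl⟩ := hx
    refine Submodule.subset_span ⟨(l+1, a, b), ?_, ?_⟩
    · have := mem_idx.mp (Finset.mem_coe.mp hp)
      refine Finset.mem_coe.mpr (mem_idx.mpr ?_)
      omega
    · simp only [bas, pow_succ]; ring
  | zero => simp
  | add x y _ _ hx hy => rw [mul_add]; exact Submodule.add_mem _ hx hy
  | smul r x _ hx => rw [mul_smul_comm]; exact Submodule.smul_mem _ _ hx

lemma monomial_mem (t0 t1 t2 : A) (ht0 : IsUnit t0) (a : ℕ) :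
    ∀ b D : ℕ, a + b ≤ D →
    (MvPolynomial.X 0 ^ a * MvPolynomial.X 1 ^ b : MvPolynomial (Fin 2) A) ∈
      Submodule.span A (bas t0 t1 t2 '' (idx D : Set (ℕ × ℕ × ℕ))) := by
  obtain ⟨u, hu⟩ := ht0
  induction a using Nat.strong_induction_on with
  | _ a ih =>
    intro b D hD
    by_cases ha : a < 3
    · refine Submodule.subset_span ⟨(0, a, b), ?_, ?_⟩
      · exact Finset.mem_coe.mpr (mem_idx.mpr ⟨ha, by omega⟩)
      · simp [bas]
    · push Not at ha
      obtain ⟨a', rfl⟩ : ∃ a', a = a' + 3 := ⟨a - 3, by omega⟩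
      have e : (MvPolynomial.X 0 ^ (a' + 3) * MvPolynomial.X 1 ^ b : MvPolynomial (Fin 2) A) =
          (↑u⁻¹ : A) • (MvPolynomial.X 0 ^ (a' + 1) * MvPolynomial.X 1 ^ (b + 1)
            - t1 • (MvPolynomial.X 0 ^ a' * MvPolynomial.X 1 ^ b)
            - t2 • (MvPolynomial.X 0 ^ a' * MvPolynomial.X 1 ^ (b + 3))
            - gpoly t0 t1 t2 * (MvPolynomial.X 0 ^ a' * MvPolynomial.X 1 ^ b)) := by
        have e2 : (MvPolynomial.X 0 ^ (a' + 1) * MvPolynomial.X 1 ^ (b + 1)
            - t1 • (MvPolynomial.X 0 ^ a' * MvPolynomial.X 1 ^ b)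
            - t2 • (MvPolynomial.X 0 ^ a' * MvPolynomial.X 1 ^ (b + 3))
            - gpoly t0 t1 t2 * (MvPolynomial.X 0 ^ a' * MvPolynomial.X 1 ^ b) :
              MvPolynomial (Fin 2) A) =
            t0 • (MvPolynomial.X 0 ^ (a' + 3) * MvPolynomial.X 1 ^ b) := by
          simp only [gpoly, MvPolynomial.smul_eq_C_mul]
          ring
        rw [e2, smul_smul, ← hu, Units.inv_mul, one_smul]
      rw [e]
      refine Submodule.smul_mem _ _ (Submodule.sub_mem _ (Submodule.sub_mem _
        (Submodule.sub_mem _ ?_ ?_) ?_) ?_)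
      · exact ih (a'+1) (by omega) (b+1) D (by omega)
      · exact Submodule.smul_mem _ _ (ih a' (by omega) b D (by omega))
      · exact Submodule.smul_mem _ _ (ih a' (by omega) (b+3) D (by omega))
      · exact span_mono_g t0 t1 t2 (D := D - 3) (by omega) (ih a' (by omega) b (D-3) (by omega))

/-- the `g`-adic expansion with total degree control. -/
lemma gadic (t0 t1 t2 : A) (ht0 : IsUnit t0) (D : ℕ) (F : MvPolynomial (Fin 2) A)
    (hF : F.totalDegree ≤ D) :
    ∃ c : ℕ × ℕ × ℕ → A, F = ∑ p ∈ idx D, MvPolynomial.C (c p) * bas t0 t1 t2 p := by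
  classical
  have hmem : F ∈ Submodule.span A (bas t0 t1 t2 '' (idx D : Set (ℕ × ℕ × ℕ))) := by
    rw [F.as_sum]
    refine Submodule.sum_mem _ fun s hs => ?_
    have hsd : s 0 + s 1 ≤ D := by
      have h1 := MvPolynomial.le_totalDegree hs
      have h2 : (s.sum fun _ e => e) = s 0 + s 1 := by
        rw [Finsupp.sum_fintype _ _ (by simp), Fin.sum_univ_two]
      omega
    have e : MvPolynomial.monomial s (MvPolynomial.coeff s F) =
        MvPolynomial.coeff s F • (MvPolynomial.X 0 ^ (s 0) * MvPolynomial.X 1 ^ (s 1)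
          : MvPolynomial (Fin 2) A) := by
      rw [MvPolynomial.monomial_eq, Finsupp.prod_fintype _ _ (by simp), Fin.prod_univ_two,
        MvPolynomial.smul_eq_C_mul]
    rw [e]
    exact Submodule.smul_mem _ _ (monomial_mem t0 t1 t2 ht0 _ _ _ hsd)
  obtain ⟨c, hc⟩ := (Submodule.mem_span_image_finset_iff_exists_fun A).mp hmem
  refine ⟨fun p => if hp : p ∈ idx D then c ⟨p, hp⟩ else 0, ?_⟩
  rw [← hc, ← Finset.sum_coe_sort (idx D)]
  refine Finset.sum_congr rfl fun p _ => ?_
  rw [MvPolynomial.smul_eq_C_mul]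
  simp

end Gadic


lemma coeff_mul_low {S : Type*} [CommRing S] (P Q : S[X]) (k : ℕ)
    (h : ∀ j < k, P.coeff j = 0) : (P * Q).coeff k = P.coeff k * Q.coeff 0 := by
  rw [coeff_mul, Finset.sum_eq_single (k, 0)]
  · rintro ⟨i, j⟩ hij hne
    have hsum : i + j = k := Finset.HasAntidiagonal.mem_antidiagonal.mp hij
    have : i < k := by
      rcases Nat.eq_zero_or_pos j with hj | hj
      · subst hj
        exact absurd (by simp at hsum; rw [hsum]) hne
      · omega
    simp [h i this]
  · intro hk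
    exact absurd (Finset.HasAntidiagonal.mem_antidiagonal.mpr (by simp)) hk

section Main

variable {O R : Type*} [CommRing O] [CommRing R] [Algebra O R]

lemma phi_C (a : O) : phi (R := R) (C a) = C (C (algebraMap O R a)) := by
  simp [phi]

lemma coeff_phi (c : O[X]) (j : ℕ) :
    (phi (R := R) c).coeff j = C (algebraMap O R (c.coeff j)) := by
  simp [phi]

/-- the `ε`-part `(1+V) h` of the second variable. -/
noncomputable def EE (h : R) : R[X][X] := C ((1 + X) * C h)

/-- `Φ(g) = ε G`. -/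
noncomputable def GG (x y h : R) (t2 : O) : R[X][X] :=
  EE h * (C (C (x - 3 * algebraMap O R t2 * y ^ 2))
    - X * (3 * C (C (algebraMap O R t2 * y)) * EE h)
    - X ^ 2 * (C (C (algebraMap O R t2)) * EE h ^ 2))

lemma Phi_gpoly (x y h : R) (t0 t1 t2 : O)
    (hg : x * y = algebraMap O R t0 * x ^ 3 + algebraMap O R t1 + algebraMap O R t2 * y ^ 3) :
    Phi x y h (gpoly (C t0) (C t1) (C t2)) = X * GG x y h t2 := by
  have e0 : Phi x y h (MvPolynomial.X 0 : MvPolynomial (Fin 2) O[X]) = C (C x) := by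
    simp [Phi, img]
  have e1 : Phi x y h (MvPolynomial.X 1 : MvPolynomial (Fin 2) O[X]) = C (C y) + X * EE h := by
    simp [Phi, img, EE]
  have eC : ∀ a : O, Phi x y h (MvPolynomial.C (C a) : MvPolynomial (Fin 2) O[X])
      = C (C (algebraMap O R a)) := by
    intro a
    simp [Phi, phi_C]
  have hg' : (C (C x) * C (C y) : R[X][X]) = C (C (algebraMap O R t0)) * C (C x) ^ 3
      + C (C (algebraMap O R t1)) + C (C (algebraMap O R t2)) * C (C y) ^ 3 := by
    rw [← C_mul, ← C_mul, hg]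
    simp only [C_add, C_mul, C_pow]
  simp only [gpoly, map_sub, map_mul, map_pow, e0, e1, eC, GG]
  have e3 : (C (C (3 : R)) : R[X][X]) = 3 := by
    have h3 : (C (3 : R) : R[X]) = 3 := map_ofNat C 3
    rw [h3]
    exact map_ofNat C 3
  simp only [e3]
  linear_combination hg'

lemma coeff_GG (x y h u : R) (t2 : O) (hh : h * (x - 3 * algebraMap O R t2 * y ^ 2) = u ^ 3) :
    (GG x y h t2).coeff 0 = (1 + X) * C (u ^ 3) := by
  rw [coeff_zero_eq_eval_zero]
  simp only [GG, EE, eval_mul, eval_sub, eval_C, eval_X, eval_pow, zero_mul, sub_zero]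
  rw [← hh]
  simp only [ne_eq, OfNat.ofNat_ne_zero, not_false_eq_true, zero_pow, zero_mul, sub_zero, C_mul]
  ring

lemma coeff_term (x y h u : R) (t0 t1 t2 : O)
    (hg : x * y = algebraMap O R t0 * x ^ 3 + algebraMap O R t1 + algebraMap O R t2 * y ^ 3)
    (hh : h * (x - 3 * algebraMap O R t2 * y ^ 2) = u ^ 3)
    (c : O[X]) (l a b ν : ℕ) (hc : ∀ j, l + j < ν → c.coeff j = 0) :
    (Phi x y h (MvPolynomial.C c * bas (C t0) (C t1) (C t2) (l, a, b))).coeff ν =
      if l ≤ ν then C (algebraMap O R (c.coeff (ν - l)) * (u ^ 3) ^ l * x ^ a * y ^ b)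
        * (1 + X) ^ l else 0 := by
  have e0 : Phi x y h (MvPolynomial.X 0 : MvPolynomial (Fin 2) O[X]) = C (C x) := by
    simp [Phi, img]
  have e1 : Phi x y h (MvPolynomial.X 1 : MvPolynomial (Fin 2) O[X]) = C (C y) + X * EE h := by
    simp [Phi, img, EE]
  have eC : Phi x y h (MvPolynomial.C c : MvPolynomial (Fin 2) O[X]) = phi c := by
    simp [Phi]
  have e : Phi x y h (MvPolynomial.C c * bas (C t0) (C t1) (C t2) (l, a, b)) =
      X ^ l * (phi c * (GG x y h t2 ^ l * (C (C x) ^ a * (C (C y) + X * EE h) ^ b))) := by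
    simp only [bas, map_mul, map_pow, eC, e0, e1, Phi_gpoly x y h t0 t1 t2 hg]
    ring
  rw [e, coeff_X_pow_mul']
  split_ifs with hl
  · rw [coeff_mul_low]
    · rw [coeff_phi]
      have h0 : (GG x y h t2 ^ l * (C (C x) ^ a * (C (C y) + X * EE h) ^ b)).coeff 0 =
          ((1 + X) * C (u ^ 3)) ^ l * (C x ^ a * C y ^ b) := by
        rw [← coeff_GG x y h u t2 hh]
        simp only [coeff_zero_eq_eval_zero, eval_mul, eval_pow, eval_C, eval_add, eval_X,
          zero_mul, add_zero]
      rw [h0]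
      simp only [C_mul, C_pow, mul_pow]
      ring
    · intro j hj
      rw [coeff_phi, hc j (by omega)]
      simp
  · rfl

/-- box containing `idx (3n)`. -/
def box (n : ℕ) : Finset (ℕ × ℕ × ℕ) :=
  Finset.range (n+1) ×ˢ Finset.range 3 ×ˢ Finset.range (3*n+1)

lemma idx_subset_box (n : ℕ) : idx (3 * n) ⊆ box n := by
  rintro ⟨l, a, b⟩ hp
  rw [mem_idx] at hp
  simp only [box, Finset.mem_product, Finset.mem_range]
  omega

lemma sum_idx {M : Type*} [AddCommMonoid M] (n : ℕ) (f : ℕ × ℕ × ℕ → M) :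
    ∑ p ∈ idx (3 * n), f p = ∑ l ∈ Finset.range (n+1), ∑ a ∈ Finset.range 3,
      ∑ b ∈ Finset.range (3*n+1), if (l, a, b) ∈ idx (3 * n) then f (l, a, b) else 0 := by
  classical
  have h1 : ∑ p ∈ idx (3 * n), f p = ∑ p ∈ box n, if p ∈ idx (3 * n) then f p else 0 := by
    rw [Finset.sum_ite_mem, Finset.inter_eq_right.mpr (idx_subset_box n)]
  rw [h1, box, Finset.sum_product]
  refine Finset.sum_congr rfl fun l _ => ?_
  rw [Finset.sum_product]

theorem assembly {J : Type*}
    (x y u h X1 : R) (hu : X1 * u = 1) (t0 t1 t2 : O) (ht0 : IsUnit t0)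
    (hg : x * y = algebraMap O R t0 * x ^ 3 + algebraMap O R t1 + algebraMap O R t2 * y ^ 3)
    (hh : h * (x - 3 * algebraMap O R t2 * y ^ 2) = u ^ 3)
    (hker : ∀ p0 p1 p2 : O[X], aeval y p0 + x * aeval y p1 + x ^ 2 * aeval y p2 = 0 →
      p0 = 0 ∧ p1 = 0 ∧ p2 = 0)
    (n m : ℕ) (zeta : J → R) (ev : J → R →+* O)
    (hev : ∀ j (a : R), zeta j ∣ a - algebraMap O R (ev j a))
    (F : MvPolynomial (Fin 2) O[X]) (hF : F ≠ 0) (hdeg : F.totalDegree ≤ 3 * n)
    (hvan : ∀ j, Crest.AlgGeometry.VanishesToOrder F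
      ![C (ev j x), C (ev j y) + X * C (ev j h)] m) :
    ∃ c : ℕ → R,
      (∀ i ≤ n, c i ∈ Submodule.span O
        {w : R | ∃ a b e, a + b + e = 3 * i ∧ w = (X1 * x) ^ a * (X1 * y) ^ b * X1 ^ e}) ∧
      (∃ i ≤ n, c i ≠ 0) ∧
      ∀ j l, zeta j ^ (m - l) ∣
        (∑ i ∈ Finset.range (n+1), C (c i) * (1 + X) ^ (n - i) : R[X]).coeff l := by
  classical
  obtain ⟨cc, hcc⟩ := gadic (C t0) (C t1) (C t2) (ht0.map C) (3 * n) F hdeg
  -- some coefficient is nonzero
  have hex : ∃ ν, ∃ p ∈ idx (3 * n), ∃ j, p.1 + j = ν ∧ (cc p).coeff j ≠ 0 := by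
    by_contra hcon
    push Not at hcon
    apply hF
    rw [hcc]
    refine Finset.sum_eq_zero fun p hp => ?_
    have : cc p = 0 := by
      ext j
      simpa using hcon (p.1 + j) p hp j rfl
    simp [this]
  set ν := Nat.find hex with hν
  obtain ⟨p0, hp0, j0, hj0, hne0⟩ := Nat.find_spec hex
  rw [← hν] at hj0
  have hlow : ∀ p ∈ idx (3 * n), ∀ j, p.1 + j < ν → (cc p).coeff j = 0 := by
    intro p hp j hj
    by_contra hne
    exact Nat.find_min hex hj ⟨p, hp, j, rfl, hne⟩
  -- the coefficients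
  set d : ℕ → ℕ → ℕ → O := fun l a b =>
    if (l, a, b) ∈ idx (3 * n) then (if l ≤ ν then (cc (l, a, b)).coeff (ν - l) else 0) else 0
    with hd
  set c : ℕ → R := fun i => X1 ^ (3 * i) * ∑ a ∈ Finset.range 3, ∑ b ∈ Finset.range (3*n+1),
    algebraMap O R (d (n - i) a b) * (x ^ a * y ^ b) with hc
  have hH : (Phi x y h F).coeff ν = ∑ l ∈ Finset.range (n+1), ∑ a ∈ Finset.range 3,
      ∑ b ∈ Finset.range (3*n+1),
        C (algebraMap O R (d l a b) * (u ^ 3) ^ l * x ^ a * y ^ b) * (1 + X) ^ l := by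
    rw [hcc, map_sum, finsetSum_coeff, sum_idx]
    refine Finset.sum_congr rfl fun l _ => Finset.sum_congr rfl fun a _ =>
      Finset.sum_congr rfl fun b _ => ?_
    by_cases hmem : (l, a, b) ∈ idx (3 * n)
    · rw [if_pos hmem, coeff_term x y h u t0 t1 t2 hg hh _ l a b ν (fun j hj => hlow _ hmem j hj)]
      simp only [hd, if_pos hmem]
      split_ifs with hl
      · rfl
      · simp
    · rw [if_neg hmem]
      simp only [hd, if_neg hmem]
      simp
  have hH0 : (∑ i ∈ Finset.range (n+1), C (c i) * (1 + X) ^ (n - i) : R[X]) =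
      C (X1 ^ (3 * n)) * (Phi x y h F).coeff ν := by
    rw [hH, ← Finset.sum_range_reflect, Finset.mul_sum]
    refine Finset.sum_congr rfl fun l hl => ?_
    have hln : l ≤ n := by
      have := Finset.mem_range.mp hl
      omega
    have e1 : n + 1 - 1 - l = n - l := by omega
    have e2 : n - (n - l) = l := by omega
    rw [e1, e2]
    simp only [hc, e2]
    have e3 : X1 ^ (3 * n) * (u ^ 3) ^ l = X1 ^ (3 * (n - l)) := by
      have : 3 * n = 3 * (n - l) + 3 * l := by omega
      rw [this, pow_add, ← pow_mul, mul_assoc, ← mul_pow, hu, one_pow, mul_one]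
    rw [← e3, Finset.mul_sum, Finset.mul_sum, map_sum, Finset.sum_mul]
    refine Finset.sum_congr rfl fun a _ => ?_
    rw [Finset.mul_sum, Finset.mul_sum, map_sum, Finset.sum_mul]
    refine Finset.sum_congr rfl fun b _ => ?_
    simp only [C_mul, C_pow]
    ring
  refine ⟨c, ?_, ?_, ?_⟩
  · intro i hi
    simp only [hc]
    rw [Finset.mul_sum]
    refine Submodule.sum_mem _ fun a _ => ?_
    rw [Finset.mul_sum]
    refine Submodule.sum_mem _ fun b _ => ?_
    by_cases hmem : (n - i, a, b) ∈ idx (3 * n)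
    · have hab := mem_idx.mp hmem
      have e : X1 ^ (3 * i) * (algebraMap O R (d (n - i) a b) * (x ^ a * y ^ b)) =
          d (n - i) a b • ((X1 * x) ^ a * (X1 * y) ^ b * X1 ^ (3 * i - a - b)) := by
        rw [Algebra.smul_def]
        have : 3 * i = a + b + (3 * i - a - b) := by omega
        conv_lhs => rw [this]
        rw [pow_add, pow_add, mul_pow, mul_pow]
        ring
      rw [e]
      refine Submodule.smul_mem _ _ (Submodule.subset_span ⟨a, b, 3 * i - a - b, by omega, rfl⟩)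
    · have : d (n - i) a b = 0 := by simp only [hd, if_neg hmem]
      rw [this]
      simp
  · obtain ⟨l0, a0, b0⟩ := p0
    have hab := mem_idx.mp hp0
    simp only at hj0 hne0
    refine ⟨n - l0, by omega, ?_⟩
    intro hzero
    have e2 : n - (n - l0) = l0 := by omega
    simp only [hc, e2] at hzero
    have hzero' : ∑ a ∈ Finset.range 3, ∑ b ∈ Finset.range (3*n+1),
        algebraMap O R (d l0 a b) * (x ^ a * y ^ b) = 0 := by
      have h1 : u ^ (3 * (n - l0)) * (X1 ^ (3 * (n - l0)) * ∑ a ∈ Finset.range 3,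
          ∑ b ∈ Finset.range (3*n+1), algebraMap O R (d l0 a b) * (x ^ a * y ^ b)) = 0 := by
        rw [hzero, mul_zero]
      rwa [← mul_assoc, ← mul_pow, mul_comm u X1, hu, one_pow, one_mul] at h1
    set P : ℕ → O[X] := fun a => ∑ b ∈ Finset.range (3*n+1), monomial b (d l0 a b) with hP
    have hPa : ∀ a, aeval y (P a) = ∑ b ∈ Finset.range (3*n+1),
        algebraMap O R (d l0 a b) * y ^ b := by
      intro a
      simp only [hP, map_sum, aeval_monomial]
    have hcoefP : (P a0).coeff b0 = d l0 a0 b0 := by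
      simp only [hP, finsetSum_coeff, coeff_monomial]
      rw [Finset.sum_ite_eq' (Finset.range (3*n+1)) b0, if_pos]
      exact Finset.mem_range.mpr (by omega)
    have hd0 : d l0 a0 b0 = (cc (l0, a0, b0)).coeff j0 := by
      simp only [hd, if_pos hp0]
      rw [if_pos (by omega)]
      congr 1
      omega
    have hsum : aeval y (P 0) + x * aeval y (P 1) + x ^ 2 * aeval y (P 2) = 0 := by
      rw [← hzero', Finset.sum_range_succ, Finset.sum_range_succ, Finset.sum_range_succ,
        Finset.sum_range_zero, zero_add, hPa, hPa, hPa, Finset.mul_sum, Finset.mul_sum]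
      congr 1
      · congr 1
        · refine Finset.sum_congr rfl fun b _ => ?_
          ring
        · refine Finset.sum_congr rfl fun b _ => ?_
          ring
      · refine Finset.sum_congr rfl fun b _ => ?_
        ring
    obtain ⟨h0, h1, h2⟩ := hker _ _ _ hsum
    have hPz : P a0 = 0 := by
      have ha0 : a0 < 3 := hab.1
      interval_cases a0
      · exact h0
      · exact h1
      · exact h2
    apply hne0
    rw [← hd0, ← hcoefP, hPz, coeff_zero]
  · intro j l
    rw [hH0, coeff_C_mul]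
    exact Dvd.dvd.mul_left (JJ_Phi (zeta j) (ev j) (hev j) x y h m F (hvan j) ν l) _

end Main

end Crest.Agent.R259.Assembly
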