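import Crest.Agent.R259.Theta

/-!
R259 (Nagata): the theta series `th N Bp al e ∈ M_1` (with `Bp = B + al N`), their coefficients,
units, support classes modulo `3`.
-/

set_option autoImplicit false

namespace Crest.Agent.R259

open scoped LaurentPolynomial
open LaurentPolynomial

noncomputable section

variable {k : Type*} [Field k]

/-- `Q_e(l) = 3N l(l-1)/2 + l (N e + B')`. -/
def Qf (N Bp e l : ℤ) : ℤ := 3 * N * (l * (l - 1) / 2) + l * (N * e + Bp)

theorem half_succ (l : ℤ) : (l + 1) * (l + 1 - 1) / 2 = l * (l - 1) / 2 + l := by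
  have : (l + 1) * (l + 1 - 1) = l * (l - 1) + l * 2 := by ring
  rw [this, Int.add_mul_ediv_right _ _ (by norm_num)]

theorem two_half (l : ℤ) : 2 * (l * (l - 1) / 2) = l * (l - 1) := by
  have h : (2 : ℤ) ∣ l * (l - 1) := by
    have := Int.even_mul_pred_self l
    exact this.two_dvd
  exact Int.mul_ediv_cancel' h

theorem Qf_zero (N Bp e : ℤ) : Qf N Bp e 0 = 0 := by simp [Qf]

theorem Qf_succ (N Bp e l : ℤ) : Qf N Bp e (l + 1) = Qf N Bp e l + 3 * N * l + N * e + Bp := by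
  unfold Qf
  rw [half_succ]
  ring

theorem two_Qf (N Bp e l : ℤ) :
    2 * Qf N Bp e l = 3 * N * (l * (l - 1)) + 2 * l * (N * e + Bp) := by
  unfold Qf
  have := two_half l
  linear_combination (3 * N) * this

theorem le_Qf {N Bp e : ℤ} (h1 : N < Bp) (h2 : Bp < 2 * N) (he1 : -1 ≤ e) (he2 : e ≤ 1) (l : ℤ) :
    |l| ≤ Qf N Bp e l := by
  have hN : 0 < N := by linarith
  have h := two_Qf N Bp e l
  rcases le_or_gt 0 l with hl | hl
  · rw [abs_of_nonneg hl]
    have hE : 1 ≤ N * e + Bp := by nlinarith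
    rcases eq_or_lt_of_le hl with h0 | h0
    · subst h0; rw [Qf_zero]
    · have h3 : 0 ≤ 3 * N * (l * (l - 1)) := by
        apply mul_nonneg (by linarith)
        apply mul_nonneg hl (by omega)
      nlinarith
  · rw [abs_of_neg hl]
    have hE : 1 ≤ 3 * N - (N * e + Bp) := by nlinarith
    obtain ⟨j, hj⟩ : ∃ j : ℤ, l = -j := ⟨-l, by ring⟩
    subst hj
    have hj1 : 1 ≤ j := by omega
    have h3 : 3 * N * (2 * j) ≤ 3 * N * (-j * (-j - 1)) := by
      apply mul_le_mul_of_nonneg_left _ (by linarith)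
      nlinarith
    nlinarith

/-- The theta series `X_e = ∑_l z^{al+e+3l} t^{Q_e(l)}`. -/
def th (N Bp al e : ℤ) : RR k :=
  PowerSeries.mk fun s : ℕ =>
    ∑ l ∈ (Finset.Icc (-(s : ℤ)) s).filter (fun l => Qf N Bp e l = s),
      (T (al + e + 3 * l) : k[T;T⁻¹])

section

variable {N Bp al e : ℤ} (h1 : N < Bp) (h2 : Bp < 2 * N) (he1 : -1 ≤ e) (he2 : e ≤ 1)

include h1 h2 he1 he2

theorem coef_th_pos (l : ℤ) :
    coef (th N Bp al e : RR k) (al + e + 3 * l) (Qf N Bp e l) = 1 := by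
  have hb := le_Qf h1 h2 he1 he2 l
  have hpos : 0 ≤ Qf N Bp e l := le_trans (abs_nonneg l) hb
  obtain ⟨n, hn⟩ := Int.eq_ofNat_of_zero_le hpos
  rw [hn, coef_nat, th, PowerSeries.coeff_mk, AddMonoidAlgebra.coeff_sum,
    Finsupp.finsetSum_apply]
  rw [Finset.sum_eq_single l]
  · simp
  · intro b _ hb'
    rw [T_apply, if_neg]
    intro h
    apply hb'
    linarith
  · intro h
    exfalso
    apply h
    rw [Finset.mem_filter, Finset.mem_Icc]
    rw [hn] at hb
    have := abs_le.mp hb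
    exact ⟨this, hn⟩

omit h1 h2 he1 he2 in
theorem coef_th_ne {x s : ℤ} (h : coef (th N Bp al e : RR k) x s ≠ 0) :
    ∃ l, x = al + e + 3 * l ∧ s = Qf N Bp e l := by
  by_cases hs : 0 ≤ s
  · obtain ⟨n, rfl⟩ := Int.eq_ofNat_of_zero_le hs
    rw [coef_nat, th, PowerSeries.coeff_mk, AddMonoidAlgebra.coeff_sum,
      Finsupp.finsetSum_apply] at h
    obtain ⟨l, hl, hl'⟩ := Finset.exists_ne_zero_of_sum_ne_zero h
    rw [Finset.mem_filter] at hl
    rw [T_apply] at hl'
    have : al + e + 3 * l = x := by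
      by_contra hne
      rw [if_neg hne] at hl'
      exact hl' rfl
    exact ⟨l, this.symm, hl.2.symm⟩
  · exact absurd (coef_of_neg _ _ (not_le.mp hs)) h

omit h1 h2 he1 he2 in
theorem coef_th_eq_zero {x s : ℤ} (h : ∀ l, ¬ (x = al + e + 3 * l ∧ s = Qf N Bp e l)) :
    coef (th N Bp al e : RR k) x s = 0 := by
  by_contra hne
  obtain ⟨l, hl⟩ := coef_th_ne hne
  exact h l hl

open Classical in
theorem coef_th (x s : ℤ) :
    coef (th N Bp al e : RR k) x s =
      if ∃ l, x = al + e + 3 * l ∧ s = Qf N Bp e l then 1 else 0 := by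
  split_ifs with h
  · obtain ⟨l, rfl, rfl⟩ := h
    exact coef_th_pos h1 h2 he1 he2 l
  · push Not at h
    exact coef_th_eq_zero (fun l hl => h l hl.1 hl.2)

omit h1 h2 he1 he2 in
theorem QP_th_aux {B : ℤ} (hB : Bp = B + al * N) (h1 : N < Bp) (h2 : Bp < 2 * N) (he1 : -1 ≤ e)
    (he2 : e ≤ 1) : QP N B 1 (th N Bp al e : RR k) := by
  classical
  intro x s
  rw [coef_th h1 h2 he1 he2, coef_th h1 h2 he1 he2]
  have : (∃ l, x + 3 * 1 = al + e + 3 * l ∧ s + N * x + 1 * B = Qf N Bp e l) ↔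
      (∃ l, x = al + e + 3 * l ∧ s = Qf N Bp e l) := by
    constructor
    · rintro ⟨l, hl1, hl2⟩
      refine ⟨l - 1, by linarith, ?_⟩
      have := Qf_succ N Bp e (l - 1)
      rw [sub_add_cancel] at this
      rw [this] at hl2
      have hx : x = al + e + 3 * (l - 1) := by linarith
      subst hx
      rw [hB] at hl2 ⊢
      linarith
    · rintro ⟨l, hl1, hl2⟩
      refine ⟨l + 1, by linarith, ?_⟩
      rw [Qf_succ, ← hl2, hl1]
      rw [hB]; ring
  simp only [this]

omit h1 h2 he1 he2 in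
theorem coeff_zero_th : PowerSeries.coeff 0 (th N Bp al e : RR k) = T (al + e) := by
  rw [th, PowerSeries.coeff_mk]
  have : (Finset.Icc (-((0 : ℕ) : ℤ)) ((0 : ℕ) : ℤ)).filter
      (fun l => Qf N Bp e l = ((0 : ℕ) : ℤ)) = {0} := by
    ext l
    simp only [Nat.cast_zero, neg_zero, Finset.Icc_self, Finset.mem_filter,
      Finset.mem_singleton]
    constructor
    · exact fun h => h.1
    · rintro rfl
      exact ⟨rfl, Qf_zero _ _ _⟩
  rw [this]
  simp

omit h1 h2 he1 he2 in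
theorem isUnit_th : IsUnit (th N Bp al e : RR k) := by
  rw [PowerSeries.isUnit_iff_constantCoeff, ← PowerSeries.coeff_zero_eq_constantCoeff_apply,
    coeff_zero_th]
  exact isUnit_T _

end

theorem QP_th {N B al e : ℤ} (h1 : N < B + al * N) (h2 : B + al * N < 2 * N) (he1 : -1 ≤ e)
    (he2 : e ≤ 1) : QP N B 1 (th N (B + al * N) al e : RR k) :=
  QP_th_aux rfl h1 h2 he1 he2

/-- the integer `al` with `N < B + al N < 2N`. -/
theorem exists_al {N B : ℤ} (hN : 0 < N) (hB : ¬ N ∣ B) :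
    ∃ al : ℤ, N < B + al * N ∧ B + al * N < 2 * N := by
  refine ⟨1 - B / N, ?_, ?_⟩
  · have h1 : 0 ≤ B % N := Int.emod_nonneg _ hN.ne'
    have h2 : B % N ≠ 0 := fun h => hB (Int.dvd_of_emod_eq_zero h)
    have h3 := Int.emod_add_mul_ediv B N
    have h4 : 0 < B % N := lt_of_le_of_ne h1 (Ne.symm h2)
    nlinarith
  · have h2 : B % N < N := Int.emod_lt_of_pos _ hN
    have h3 := Int.emod_add_mul_ediv B N
    nlinarith

theorem not_dvd_NB (n r m : ℕ) : ¬ (6 * (n : ℤ) ^ 2) ∣ (2 * n * r * m - 1 : ℤ) := by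
  intro h
  have h2 : (2 : ℤ) ∣ 2 * n * r * m - 1 :=
    dvd_trans ⟨3 * (n : ℤ) ^ 2, by ring⟩ h
  have h3 : (2 : ℤ) ∣ 2 * n * r * m := ⟨n * r * m, by ring⟩
  have h4 : (2 : ℤ) ∣ 1 := by
    have := dvd_sub h3 h2
    simp at this
  norm_num at h4

/-- support class modulo 3 -/
def Cls (c : ℤ) (a : RR k) : Prop := ∀ x s : ℤ, coef a x s ≠ 0 → (3 : ℤ) ∣ x - c

theorem Cls.mul {c d : ℤ} {a b : RR k} (ha : Cls c a) (hb : Cls d b) : Cls (c + d) (a * b) := by
  intro x s h
  rw [coef_mul] at h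
  obtain ⟨p, hp⟩ : ∃ p : ℤ × ℤ, coef a p.1 p.2 * coef b (x - p.1) (s - p.2) ≠ 0 := by
    by_contra hcon
    push Not at hcon
    exact h (finsum_eq_zero_of_forall_eq_zero hcon)
  obtain ⟨hp1, hp2⟩ := mul_ne_zero_iff.mp hp
  have h1 := ha _ _ hp1
  have h2 := hb _ _ hp2
  have := dvd_add h1 h2
  have e : p.1 - c + (x - p.1 - d) = x - (c + d) := by ring
  rwa [e] at this

theorem Cls.emb (u : PowerSeries k) : Cls 0 (emb u) := by
  intro x s h
  rw [coef_emb] at h
  have : x = 0 := by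
    by_contra hx
    apply h
    simp [hx]
  simp [this]

theorem Cls.one : Cls 0 (1 : RR k) := by
  have : (1 : RR k) = R259.emb 1 := by simp
  rw [this]; exact Cls.emb 1

theorem Cls.congr {c d : ℤ} {a : RR k} (ha : Cls c a) (h : (3 : ℤ) ∣ c - d) : Cls d a := by
  intro x s hx
  have := dvd_add (ha x s hx) h
  have e : x - c + (c - d) = x - d := by ring
  rwa [e] at this

theorem Cls.smul {c : ℤ} {a : RR k} (u : PowerSeries k) (ha : Cls c a) :
    Cls c (R259.emb u * a) := by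
  have := (Cls.emb u).mul ha
  rwa [zero_add] at this

theorem Cls.pow {c : ℤ} {a : RR k} (ha : Cls c a) (n : ℕ) : Cls (n * c) (a ^ n) := by
  induction n with
  | zero => simpa using Cls.one
  | succ n ih =>
    rw [pow_succ]
    have := ih.mul ha
    convert this using 1
    push_cast; ring

theorem Cls.add {c : ℤ} {a b : RR k} (ha : Cls c a) (hb : Cls c b) : Cls c (a + b) := by
  intro x s h
  rw [coef_add] at h
  by_cases h0 : coef a x s = 0
  · rw [h0, zero_add] at h
    exact hb x s h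
  · exact ha x s h0

theorem Cls.neg {c : ℤ} {a : RR k} (ha : Cls c a) : Cls c (-a) := by
  intro x s h
  rw [coef_neg] at h
  exact ha x s (fun h0 => h (by rw [h0, neg_zero]))

theorem Cls.sub {c : ℤ} {a b : RR k} (ha : Cls c a) (hb : Cls c b) : Cls c (a - b) := by
  rw [sub_eq_add_neg]; exact ha.add hb.neg

theorem Cls_th {N Bp al e : ℤ} :
    Cls (al + e) (th N Bp al e : RR k) := by
  intro x s h
  obtain ⟨l, hl, _⟩ := coef_th_ne h
  rw [hl]
  exact ⟨l, by ring⟩

theorem emb_eq_algebraMap : (emb : PowerSeries k →+* RR k) = algebraMap (PowerSeries k) (RR k) :=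
  rfl

end

end Crest.Agent.R259
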