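import Crest.Agent.R259.AsmEnd
import Crest.Agent.R259.AsmCore
import Crest.Agent.R259.AsmPts
import Crest.Agent.R259.ThetaSer
import Crest.Agent.R259.Assembly

/-!
R259 (Nagata): the core theorem from all the pieces.
-/

set_option autoImplicit false

open Polynomial Crest.AlgGeometry

namespace Crest.Agent.R259.Asm

open scoped LaurentPolynomial in
/-- The data of the elliptic curve at `k[[t]]`. -/
theorem core_aux {k : Type} [Field k] [CharZero k]
    -- cubic relation
    (cubic : ∀ {N B al : ℤ}, N < B + al * N → B + al * N < 2 * N → ∃ t0 t1 t2 : PowerSeries k,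
      (th N (B + al * N) al (-1) : RR k) * th N (B + al * N) al 0 * th N (B + al * N) al 1 =
        algebraMap (PowerSeries k) (RR k) t0 * (th N (B + al * N) al 0) ^ 3 +
        algebraMap (PowerSeries k) (RR k) t1 * (th N (B + al * N) al 1) ^ 3 +
        algebraMap (PowerSeries k) (RR k) t2 * (th N (B + al * N) al (-1)) ^ 3 ∧
      PowerSeries.coeff 0 t0 = 1 ∧ PowerSeries.coeff 0 t1 = 0 ∧ PowerSeries.coeff 0 t2 = 0 ∧
      (t1 ≠ 0 ∨ t2 ≠ 0))
    -- kernel lemma
    (kernel : ∀ (t0 t1 t2 : PowerSeries k) (x y : RR k),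
      PowerSeries.coeff 0 t0 = 1 → PowerSeries.coeff 0 t1 = 0 → PowerSeries.coeff 0 t2 = 0 →
      (t1 ≠ 0 ∨ t2 ≠ 0) →
      x * y = algebraMap (PowerSeries k) (RR k) t0 * x ^ 3 + algebraMap (PowerSeries k) (RR k) t1 +
        algebraMap (PowerSeries k) (RR k) t2 * y ^ 3 →
      PowerSeries.coeff 0 y = LaurentPolynomial.T (-2) →
      ∀ p0 p1 p2 : (PowerSeries k)[X], aeval y p0 + x * aeval y p1 + x ^ 2 * aeval y p2 = 0 →
        p0 = 0 ∧ p1 = 0 ∧ p2 = 0)
    {r n m : ℕ} (hr : 10 ≤ r) (hn : 1 ≤ n) (hm : 1 ≤ m) (h : 9 * n ^ 2 ≤ r * m ^ 2)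
    (z : Fin r → kˣ) (hz : Function.Injective z) :
    ∃ p : Fin r → Fin 2 → (PowerSeries k)[X],
      ∀ F : MvPolynomial (Fin 2) (PowerSeries k)[X], F.totalDegree ≤ 3 * n →
        (∀ i, VanishesToOrder F (p i) m) → F = 0 := by
  obtain ⟨al, hal1, hal2⟩ := exists_al (N := 6 * (n : ℤ) ^ 2) (B := 2 * n * r * m - 1)
    (by positivity) (not_dvd_NB n r m)
  set N : ℤ := 6 * (n : ℤ) ^ 2 with hN
  set B : ℤ := 2 * n * r * m - 1 with hB
  obtain ⟨t0, t1, t2, hcub, ht0, ht1, ht2, hne⟩ := cubic hal1 hal2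
  set Xm : RR k := th N (B + al * N) al (-1) with hXm
  set X0 : RR k := th N (B + al * N) al 0 with hX0
  set X1 : RR k := th N (B + al * N) al 1 with hX1
  have QPm : QP N B 1 Xm := QP_th hal1 hal2 (by norm_num) (by norm_num)
  have QP0 : QP N B 1 X0 := QP_th hal1 hal2 (by norm_num) (by norm_num)
  have QP1 : QP N B 1 X1 := QP_th hal1 hal2 (by norm_num) (by norm_num)
  obtain ⟨u, hu⟩ := (isUnit_th (k := k) (N := N) (Bp := B + al * N) (al := al)
    (e := 1)).exists_right_inv
  rw [← hX1] at hu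
  -- the unit w
  set A := algebraMap (PowerSeries k) (RR k) with hA
  have hcA : ∀ t : PowerSeries k, PowerSeries.coeff 0 (A t) =
      LaurentPolynomial.C (PowerSeries.coeff 0 t) := by
    intro t
    rw [hA, algebraMap_eq_emb]
    simp [emb]
  have hw : IsUnit (X0 * X1 - 3 * A t2 * Xm ^ 2) := by
    rw [PowerSeries.isUnit_iff_constantCoeff]
    have h3 : PowerSeries.constantCoeff (A t2) = 0 := by
      rw [← PowerSeries.coeff_zero_eq_constantCoeff_apply, hcA, ht2, map_zero]
    rw [map_sub, map_mul, map_mul, map_mul, h3]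
    rw [← PowerSeries.coeff_zero_eq_constantCoeff_apply,
      ← PowerSeries.coeff_zero_eq_constantCoeff_apply, hX0, hX1, coeff_zero_th, coeff_zero_th]
    simp only [mul_zero, zero_mul, sub_zero]
    rw [← LaurentPolynomial.T_add]
    exact LaurentPolynomial.isUnit_T _
  obtain ⟨w', hw'⟩ := hw.exists_right_inv
  set x : RR k := X0 * u with hx
  set y : RR k := Xm * u with hy
  set hh : RR k := u * w' with hhh
  have hX1x : X1 * x = X0 := by rw [hx]; linear_combination X0 * hu
  have hX1y : X1 * y = Xm := by rw [hy]; linear_combination Xm * hu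
  have hg : x * y = A t0 * x ^ 3 + A t1 + A t2 * y ^ 3 := by
    have h3 : X1 ^ 3 * u ^ 3 = 1 := by rw [← mul_pow, hu, one_pow]
    have h4 : x * y = (Xm * X0 * X1) * u ^ 3 := by
      rw [hx, hy]; linear_combination (-X0 * Xm * u ^ 2) * hu
    rw [h4, hcub, hx, hy]
    linear_combination (A t1) * h3
  have hh3 : hh * (x - 3 * A t2 * y ^ 2) = u ^ 3 := by
    have h5 : x - 3 * A t2 * y ^ 2 = (X0 * X1 - 3 * A t2 * Xm ^ 2) * u ^ 2 := by
      rw [hx, hy]; linear_combination (-X0 * u) * hu
    rw [h5, hhh]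
    linear_combination (u ^ 3) * hw'
  have hy0 : PowerSeries.coeff 0 y = LaurentPolynomial.T (-2) := by
    have h1 : PowerSeries.constantCoeff X1 * PowerSeries.constantCoeff u = 1 := by
      rw [← map_mul, hu, map_one]
    rw [← PowerSeries.coeff_zero_eq_constantCoeff_apply, hX1, coeff_zero_th] at h1
    rw [PowerSeries.coeff_zero_eq_constantCoeff_apply, hy, map_mul,
      ← PowerSeries.coeff_zero_eq_constantCoeff_apply, hXm, coeff_zero_th]
    have h2 : PowerSeries.constantCoeff u = LaurentPolynomial.T (-(al + 1)) := by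
      have h3 : (LaurentPolynomial.T (-(al + 1)) : k[T;T⁻¹]) * LaurentPolynomial.T (al + 1) = 1 := by
        rw [← LaurentPolynomial.T_add]; simp
      linear_combination (LaurentPolynomial.T (-(al + 1)) : k[T;T⁻¹]) * h1 -
        PowerSeries.constantCoeff u * h3
    rw [h2, ← LaurentPolynomial.T_add]
    congr 1
    ring
  have ht0u : IsUnit t0 := by
    rw [PowerSeries.isUnit_iff_constantCoeff, ← PowerSeries.coeff_zero_eq_constantCoeff_apply, ht0]
    exact isUnit_one
  have hker := kernel t0 t1 t2 x y ht0 ht1 ht2 hne hg hy0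
  refine ⟨fun j => ![C (evR (z j) x), C (evR (z j) y) + X * C (evR (z j) hh)], ?_⟩
  intro F hdeg hvan
  by_contra hF
  obtain ⟨c, hc1, ⟨i, hi, hci⟩, hc3⟩ := Assembly.assembly x y u hh X1 hu t0 t1 t2 ht0u hg hh3 hker n m
    (fun j => (PowerSeries.C (LaurentPolynomial.T 1 - LaurentPolynomial.C (z j : k)) : RR k))
    (fun j => evR (z j)) (fun j a => sub_evR_dvd (z j) a) F hF hdeg hvan
  refine hci (asm_end hr hn hm h (fun j => (z j : k)) ?_ ?_ c ?_ hc3 i hi)
  · intro a b hab
    exact hz (Units.ext hab)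
  · intro j
    exact (z j).ne_zero
  · intro i hi
    refine Submodule.span_induction (p := fun a _ => QP N B (3 * i) a) ?_ ?_ ?_ ?_ (hc1 i hi)
    · rintro w ⟨a, b, e, habe, rfl⟩
      rw [hX1x, hX1y]
      have := ((QP0.pow a).mul (QPm.pow b)).mul (QP1.pow e)
      convert this using 1
      have : (a : ℤ) + b + e = 3 * i := by exact_mod_cast habe
      linarith
    · exact QP.zero _
    · intro a b _ _ ha hb
      exact ha.add hb
    · intro a b _ hb
      rw [Algebra.smul_def, algebraMap_eq_emb]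
      exact hb.smul a

end Crest.Agent.R259.Asm
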