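import Crest.Agent.R259.ThetaSer

/-!
# R259 (Nagata), piece CUBIC

Abstract form: four elements of `M_3` with exponents divisible by `3` satisfy an `O`-linear
relation; application to the theta series `X_{-1}, X_0, X_1`.
-/

set_option autoImplicit false

namespace Crest.Agent.R259.Cubic

open scoped LaurentPolynomial
open LaurentPolynomial

variable {k : Type*} [Field k]

/-- the `x`-th coefficient series -/
noncomputable def xc (x : ℤ) (a : RR k) : PowerSeries k :=
  PowerSeries.mk fun s => (PowerSeries.coeff s a).coeff x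

lemma coeff_xc (x : ℤ) (a : RR k) (s : ℕ) :
    PowerSeries.coeff s (xc x a) = (PowerSeries.coeff s a).coeff x := by
  simp [xc]

lemma xc_add (x : ℤ) (a b : RR k) :
    xc x (a + b) = xc x a + xc x b := by
  ext s
  simp only [coeff_xc, map_add, AddMonoidAlgebra.coeff_add, Finsupp.add_apply]

lemma C_mul_apply (c : k) (f : LaurentPolynomial k) (x : ℤ) :
    (LaurentPolynomial.C c * f).coeff x = c * f.coeff x := by
  rw [← LaurentPolynomial.smul_eq_C_mul]
  simp

lemma xc_mul (x : ℤ) (c : PowerSeries k) (a : RR k) :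
    xc x (emb c * a) = c * xc x a := by
  ext s
  rw [coeff_xc, PowerSeries.coeff_mul, PowerSeries.coeff_mul, AddMonoidAlgebra.coeff_sum,
    Finsupp.finsetSum_apply]
  refine Finset.sum_congr rfl fun p _ => ?_
  rw [emb, PowerSeries.coeff_map, C_mul_apply, coeff_xc]

lemma exists_of_coef_mul_ne {a b : RR k} {x s : ℤ} (h : coef (a * b) x s ≠ 0) :
    ∃ y u : ℤ, coef a y u ≠ 0 ∧ coef b (x - y) (s - u) ≠ 0 := by
  rw [coef_mul] at h
  obtain ⟨p, hp⟩ : ∃ p : ℤ × ℤ, coef a p.1 p.2 * coef b (x - p.1) (s - p.2) ≠ 0 := by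
    by_contra hcon
    push Not at hcon
    exact h (finsum_eq_zero_of_forall_eq_zero hcon)
  exact ⟨p.1, p.2, left_ne_zero_of_mul hp, right_ne_zero_of_mul hp⟩

/-- If the coefficient series of `a ∈ M_3` (all of whose exponents are divisible by 3) vanish
at three consecutive classes, then `a = 0`. -/
lemma eq_zero_of_xc {N B y0 : ℤ} {a : RR k} (hQ : QP N B 3 a) (hcl : Cls y0 a)
    (h1 : xc (y0 - 3) a = 0) (h2 : xc y0 a = 0) (h3 : xc (y0 + 3) a = 0) : a = 0 := by
  have hup : ∀ x, (∀ s, coef a x s = 0) → ∀ s, coef a (x + 3 * 3) s = 0 := by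
    intro x hx s
    have := hQ x (s - N * x - 3 * B)
    rw [hx] at this
    rw [← this]
    congr 1
    ring
  have hdown : ∀ x, (∀ s, coef a (x + 3 * 3) s = 0) → ∀ s, coef a x s = 0 := by
    intro x hx s
    rw [← hQ x s]
    exact hx _
  have hiter : ∀ (x : ℤ), (∀ s, coef a x s = 0) → ∀ q : ℤ, ∀ s, coef a (x + 9 * q) s = 0 := by
    intro x hx q
    induction q using Int.induction_on with
    | zero => simpa using hx
    | succ i ih =>
      have := hup _ ih
      intro s
      rw [← this s]
      congr 1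
      ring
    | pred i ih =>
      apply hdown
      intro s
      rw [← ih s]
      congr 1
      ring
  have hxc : ∀ x, xc x a = 0 → ∀ s, coef a x s = 0 := by
    intro x hx s
    rcases lt_or_ge s 0 with hs | hs
    · exact coef_of_neg a x hs
    · lift s to ℕ using hs
      rw [coef_nat, ← coeff_xc, hx]
      simp
  apply coef_ext
  intro x s
  rw [coef_zero]
  by_contra hne
  have h3x := hcl x s hne
  apply hne
  obtain ⟨q, r, hr, hxr⟩ : ∃ q r : ℤ, (r = -3 ∨ r = 0 ∨ r = 3) ∧ x = y0 + r + 9 * q := by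
    have h9 : (x - y0) % 9 = 0 ∨ (x - y0) % 9 = 3 ∨ (x - y0) % 9 = 6 := by omega
    rcases h9 with h | h | h
    · exact ⟨(x - y0) / 9, 0, by simp, by omega⟩
    · exact ⟨(x - y0) / 9, 3, by simp, by omega⟩
    · exact ⟨(x - y0) / 9 + 1, -3, by simp, by omega⟩
  subst hxr
  rcases hr with rfl | rfl | rfl
  · exact hiter _ (hxc _ (by simpa [sub_eq_add_neg] using h1)) q s
  · exact hiter _ (hxc _ (by simpa using h2)) q s
  · exact hiter _ (hxc _ h3) q s

/-- A nonzero vector over `O` annihilated by a torsion-free linear condition can be divided by a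
power of `t` until some constant coefficient is nonzero. -/
lemma exists_unit_relation {J : Type*} [Fintype J] {M : Type*} [AddCommGroup M]
    [Module (PowerSeries k) M] (hM : ∀ m : M, (PowerSeries.X : PowerSeries k) • m = 0 → m = 0)
    (v : J → M) (g : J → PowerSeries k) (hg : ∑ i, g i • v i = 0) (i0 : J) (hi0 : g i0 ≠ 0) :
    ∃ g' : J → PowerSeries k, ∑ i, g' i • v i = 0 ∧
      ∃ i, PowerSeries.constantCoeff (g' i) ≠ 0 := by
  classical
  -- induct on the first nonzero coefficient of `g i0`
  have key : ∀ (n : ℕ) (g : J → PowerSeries k), ∑ i, g i • v i = 0 →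
      PowerSeries.coeff n (g i0) ≠ 0 → ∃ g' : J → PowerSeries k, ∑ i, g' i • v i = 0 ∧
      ∃ i, PowerSeries.constantCoeff (g' i) ≠ 0 := by
    intro n
    induction n with
    | zero =>
      intro g hg hn
      exact ⟨g, hg, i0, by simpa using hn⟩
    | succ n ih =>
      intro g hg hn
      by_cases h0 : ∃ i, PowerSeries.constantCoeff (g i) ≠ 0
      · exact ⟨g, hg, h0⟩
      · push Not at h0
        have hdiv : ∀ i, ∃ g' : PowerSeries k, g i = PowerSeries.X * g' := by
          intro i
          exact PowerSeries.X_dvd_iff.mpr (h0 i)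
        choose g' hg' using hdiv
        apply ih g'
        · apply hM
          rw [Finset.smul_sum, ← hg]
          refine Finset.sum_congr rfl fun i _ => ?_
          rw [smul_smul, ← hg']
        · rw [hg' i0, PowerSeries.coeff_succ_X_mul] at hn
          exact hn
  obtain ⟨n, hn⟩ : ∃ n, PowerSeries.coeff n (g i0) ≠ 0 := by
    by_contra h
    push Not at h
    exact hi0 (PowerSeries.ext h)
  exact key n g hg hn

/-- Four vectors of `O^3` are linearly dependent. -/
lemma exists_relation (v : Fin 4 → Fin 3 → PowerSeries k) :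
    ∃ g : Fin 4 → PowerSeries k, ∑ i, g i • v i = 0 ∧
      ∃ i, PowerSeries.constantCoeff (g i) ≠ 0 := by
  have hdep : ¬ LinearIndependent (PowerSeries k) v := by
    intro h
    have := h.fintype_card_le_finrank
    simp at this
  rw [Fintype.not_linearIndependent_iff] at hdep
  obtain ⟨g, hg, i, hi⟩ := hdep
  refine exists_unit_relation ?_ v g hg i hi
  intro m hm
  funext j
  have := congrFun hm j
  simp only [Pi.smul_apply, smul_eq_mul, Pi.zero_apply, mul_eq_zero] at this
  rcases this with h | h
  · exact absurd h PowerSeries.X_ne_zero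
  · simpa using h

/-- The cubic relation, abstract form. -/
theorem cubic_relation_abstract {N B y0 : ℤ} (p : Fin 4 → RR k)
    (hQ : ∀ i, QP N B 3 (p i)) (hcl : ∀ i, Cls y0 (p i))
    (h0 : PowerSeries.constantCoeff (p 0) = T y0)
    (h1 : PowerSeries.constantCoeff (p 1) = T y0)
    (h2 : PowerSeries.constantCoeff (p 2) = T (y0 + 3))
    (h3 : PowerSeries.constantCoeff (p 3) = T (y0 - 3)) :
    ∃ τ0 τ1 τ2 : PowerSeries k, PowerSeries.constantCoeff τ0 = 1 ∧
      PowerSeries.constantCoeff τ1 = 0 ∧ PowerSeries.constantCoeff τ2 = 0 ∧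
      p 0 = emb τ0 * p 1 + emb τ1 * p 2 + emb τ2 * p 3 := by
  obtain ⟨g, hg, i, hi⟩ := exists_relation (k := k)
    (fun i j => xc (y0 + 3 * ((j : ℕ) : ℤ) - 3) (p i))
  -- the combination vanishes in `R`
  have hsum : emb (g 0) * p 0 + emb (g 1) * p 1 + emb (g 2) * p 2 + emb (g 3) * p 3 = 0 := by
    have hxcs : ∀ j : Fin 3, xc (y0 + 3 * ((j : ℕ) : ℤ) - 3)
        (emb (g 0) * p 0 + emb (g 1) * p 1 + emb (g 2) * p 2 + emb (g 3) * p 3) = 0 := by
      intro j
      have := congrFun hg j
      simp only [Finset.sum_apply, Pi.smul_apply, smul_eq_mul, Pi.zero_apply,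
        Fin.sum_univ_four] at this
      rw [xc_add, xc_add, xc_add, xc_mul, xc_mul, xc_mul, xc_mul]
      exact this
    refine eq_zero_of_xc (N := N) (B := B) (y0 := y0) ?_ ?_ ?_ ?_ ?_
    · exact ((((hQ 0).smul _).add ((hQ 1).smul _)).add ((hQ 2).smul _)).add ((hQ 3).smul _)
    · exact ((((hcl 0).smul _).add ((hcl 1).smul _)).add ((hcl 2).smul _)).add ((hcl 3).smul _)
    · have := hxcs 0
      simpa using this
    · have := hxcs 1
      simpa using this
    · have := hxcs 2
      have e : y0 + 3 * (((2 : Fin 3) : ℕ) : ℤ) - 3 = y0 + 3 := by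
        norm_num
        ring
      rwa [e] at this
  -- reduce mod `t`
  have hc := congrArg (PowerSeries.constantCoeff) hsum
  simp only [map_add, map_mul, h0, h1, h2, h3, map_zero] at hc
  have hemb : ∀ c : PowerSeries k, PowerSeries.constantCoeff (emb c) =
      LaurentPolynomial.C (PowerSeries.constantCoeff c) := by
    intro c
    rw [emb, ← PowerSeries.coeff_zero_eq_constantCoeff_apply, PowerSeries.coeff_map,
      PowerSeries.coeff_zero_eq_constantCoeff_apply]
  rw [hemb, hemb, hemb, hemb] at hc
  have hcx : ∀ x : ℤ, PowerSeries.constantCoeff (g 0) * (if y0 = x then 1 else 0) +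
      PowerSeries.constantCoeff (g 1) * (if y0 = x then 1 else 0) +
      PowerSeries.constantCoeff (g 2) * (if y0 + 3 = x then 1 else 0) +
      PowerSeries.constantCoeff (g 3) * (if y0 - 3 = x then 1 else 0) = 0 := by
    intro x
    have := congrArg (fun f : LaurentPolynomial k => f.coeff x) hc
    simpa only [AddMonoidAlgebra.coeff_add, Finsupp.add_apply, C_mul_apply,
      LaurentPolynomial.T_apply, AddMonoidAlgebra.coeff_zero, Finsupp.zero_apply] using this
  have e3 : PowerSeries.constantCoeff (g 2) = 0 := by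
    have := hcx (y0 + 3)
    rw [if_neg (by omega), if_pos rfl, if_neg (by omega)] at this
    simpa using this
  have e4 : PowerSeries.constantCoeff (g 3) = 0 := by
    have := hcx (y0 - 3)
    rw [if_neg (by omega), if_neg (by omega), if_pos rfl] at this
    simpa using this
  have e12 : PowerSeries.constantCoeff (g 0) + PowerSeries.constantCoeff (g 1) = 0 := by
    have := hcx y0
    simpa using this
  have hg0 : PowerSeries.constantCoeff (g 0) ≠ 0 := by
    intro h
    rw [h, zero_add] at e12
    fin_cases i <;> simp_all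
  -- scale
  have hinv : g 0 * (g 0)⁻¹ = 1 := PowerSeries.mul_inv_cancel _ hg0
  have hcinv : PowerSeries.constantCoeff (g 0)⁻¹ = (PowerSeries.constantCoeff (g 0))⁻¹ :=
    PowerSeries.constantCoeff_inv _
  refine ⟨-(g 0)⁻¹ * g 1, -(g 0)⁻¹ * g 2, -(g 0)⁻¹ * g 3, ?_, ?_, ?_, ?_⟩
  · rw [map_mul, map_neg, hcinv, eq_neg_of_add_eq_zero_right e12]
    field_simp
  · rw [map_mul, e3, mul_zero]
  · rw [map_mul, e4, mul_zero]
  · have h1' : emb (g 0)⁻¹ * emb (g 0) = 1 := by
      rw [← map_mul, mul_comm, hinv, map_one]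
    have : p 0 = emb (g 0)⁻¹ * (emb (g 0) * p 0) := by
      rw [← mul_assoc, h1', one_mul]
    rw [this]
    have hh : emb (g 0) * p 0 = -(emb (g 1) * p 1 + emb (g 2) * p 2 + emb (g 3) * p 3) := by
      linear_combination hsum
    rw [hh]
    simp only [map_mul, map_neg]
    ring

/-- `X_{-1} X_1` is not an `O`-multiple of `X_0^2`. -/
theorem mul_ne {N B' al : ℤ} (hN : 0 < N) (Q : ℤ → ℤ → ℤ)
    (hQf : ∀ e l, 2 * Q e l = 3 * N * (l * (l - 1)) + 2 * (l * (N * e + B')))
    (X : ℤ → RR k)
    (hX1 : ∀ e l, -1 ≤ e → e ≤ 1 → coef (X e) (al + e + 3 * l) (Q e l) = 1)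
    (hX0 : ∀ e x s, -1 ≤ e → e ≤ 1 → coef (X e) x s ≠ 0 → ∃ l, x = al + e + 3 * l ∧ s = Q e l)
    (τ : PowerSeries k) : X (-1) * X 1 ≠ emb τ * (X 0 * X 0) := by
  intro h
  have hl : coef (X (-1) * X 1) (2 * al + 3) (B' - N) = 1 := by
    rw [coef_mul, finsum_eq_single _ (al + 2, B' - N)]
    · have e1 := hX1 (-1) 1 (by norm_num) (by norm_num)
      have e2 := hX1 1 0 (by norm_num) (by norm_num)
      have q1 : Q (-1) 1 = B' - N := by
        have := hQf (-1) 1
        linarith
      have q2 : Q 1 0 = 0 := by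
        have := hQf 1 0
        linarith
      rw [q1] at e1
      rw [q2] at e2
      have a1 : al + -1 + 3 * 1 = al + 2 := by ring
      have a2 : al + 1 + 3 * 0 = 2 * al + 3 - (al + 2) := by ring
      rw [a1] at e1
      rw [a2] at e2
      simp only [sub_self]
      rw [e1, e2, mul_one]
    · rintro ⟨y, u⟩ hne
      by_contra hc
      have hc1 := left_ne_zero_of_mul hc
      have hc2 := right_ne_zero_of_mul hc
      obtain ⟨l, hy, hu⟩ := hX0 (-1) _ _ (by norm_num) (by norm_num) hc1
      obtain ⟨l', hy', hu'⟩ := hX0 1 _ _ (by norm_num) (by norm_num) hc2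
      simp only at hy hu hy' hu'
      have hl' : l' = 1 - l := by omega
      subst hl'
      have q1 := hQf (-1) l
      have q2 := hQf 1 (1 - l)
      have q3 : N * ((3 * l - 2) * (l - 1)) = 0 := by
        have : 2 * (B' - N) = 2 * Q (-1) l + 2 * Q 1 (1 - l) := by linarith
        rw [q1, q2] at this
        nlinarith
      have q4 : (3 * l - 2) * (l - 1) = 0 := by
        rcases mul_eq_zero.mp q3 with h' | h'
        · omega
        · exact h'
      have q5 : l = 1 := by
        rcases mul_eq_zero.mp q4 with h' | h' <;> omega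
      subst q5
      apply hne
      have q1' : Q (-1) 1 = B' - N := by linarith
      rw [Prod.mk.injEq]
      constructor
      · omega
      · rw [hu, q1']
  have hr : coef (emb τ * (X 0 * X 0)) (2 * al + 3) (B' - N) = 0 := by
    by_contra hne
    obtain ⟨y, u, h1, h2⟩ := exists_of_coef_mul_ne hne
    rw [coef_emb] at h1
    simp only [ne_eq, ite_eq_right_iff, Classical.not_imp] at h1
    obtain ⟨⟨hu, hy⟩, -⟩ := h1
    subst hy
    obtain ⟨y', u', h3, h4⟩ := exists_of_coef_mul_ne h2
    obtain ⟨l, hy, hu1⟩ := hX0 0 _ _ (by norm_num) (by norm_num) h3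
    obtain ⟨l', hy', hu2⟩ := hX0 0 _ _ (by norm_num) (by norm_num) h4
    have hl' : l' = 1 - l := by omega
    subst hl'
    have q1 := hQf 0 l
    have q2 := hQf 0 (1 - l)
    have q3 : B' - N - u = 3 * N * (l * (l - 1)) + B' := by
      have : 2 * (B' - N - u) = 2 * Q 0 l + 2 * Q 0 (1 - l) := by linarith
      rw [q1, q2] at this
      nlinarith
    have q4 : 0 ≤ l * (l - 1) := by
      rcases le_or_gt l 0 with h' | h'
      · nlinarith
      · nlinarith
    nlinarith [mul_nonneg hN.le q4]
  rw [h, hr] at hl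
  exact zero_ne_one hl

/-- CUBIC: the relation between the theta series `X_e = th N (B + al N) al e`. -/
theorem cubic {N B al : ℤ} (h1 : N < B + al * N) (h2 : B + al * N < 2 * N) :
    ∃ τ0 τ1 τ2 : PowerSeries k, PowerSeries.constantCoeff τ0 = 1 ∧
      PowerSeries.constantCoeff τ1 = 0 ∧ PowerSeries.constantCoeff τ2 = 0 ∧
      ¬ (τ1 = 0 ∧ τ2 = 0) ∧
      (th N (B + al * N) al (-1) * th N (B + al * N) al 0 * th N (B + al * N) al 1 : RR k) =
        emb τ0 * th N (B + al * N) al 0 ^ 3 + emb τ1 * th N (B + al * N) al 1 ^ 3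
          + emb τ2 * th N (B + al * N) al (-1) ^ 3 := by
  have hN : 0 < N := by linarith
  have hc0 : ∀ e, PowerSeries.constantCoeff (th N (B + al * N) al e : RR k) = T (al + e) := by
    intro e
    rw [← PowerSeries.coeff_zero_eq_constantCoeff_apply, coeff_zero_th]
  have hQP : ∀ e, -1 ≤ e → e ≤ 1 → QP N B 1 (th N (B + al * N) al e : RR k) :=
    fun e he1 he2 => QP_th h1 h2 he1 he2
  have hpow : ∀ e, -1 ≤ e → e ≤ 1 → QP N B 3 (th N (B + al * N) al e ^ 3 : RR k) := by
    intro e he1 he2
    have := (hQP e he1 he2).pow 3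
    convert this using 1
    norm_num
  have hcl : ∀ e, Cls (3 * al) (th N (B + al * N) al e ^ 3 : RR k) := by
    intro e
    have := (Cls_th (k := k) (N := N) (Bp := B + al * N) (al := al) (e := e)).pow 3
    refine this.congr ?_
    push_cast
    exact ⟨e, by ring⟩
  set p : Fin 4 → RR k := ![th N (B + al * N) al (-1) * th N (B + al * N) al 0 *
    th N (B + al * N) al 1, th N (B + al * N) al 0 ^ 3, th N (B + al * N) al 1 ^ 3,
    th N (B + al * N) al (-1) ^ 3] with hp
  obtain ⟨τ0, τ1, τ2, hτ0, hτ1, hτ2, hrel⟩ := cubic_relation_abstract (k := k) (N := N) (B := B)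
    (y0 := 3 * al) p
    (by
      intro i
      fin_cases i
      · have := ((hQP (-1) (by norm_num) (by norm_num)).mul
          (hQP 0 (by norm_num) (by norm_num))).mul (hQP 1 (by norm_num) (by norm_num))
        simpa [hp] using this
      · exact hpow 0 (by norm_num) (by norm_num)
      · exact hpow 1 (by norm_num) (by norm_num)
      · exact hpow (-1) (by norm_num) (by norm_num))
    (by
      intro i
      fin_cases i
      · have := ((Cls_th (k := k) (N := N) (Bp := B + al * N) (al := al) (e := -1)).mul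
          (Cls_th (k := k) (N := N) (Bp := B + al * N) (al := al) (e := 0))).mul
          (Cls_th (k := k) (N := N) (Bp := B + al * N) (al := al) (e := 1))
        exact this.congr ⟨0, by ring⟩
      · exact hcl 0
      · exact hcl 1
      · exact hcl (-1))
    (by
      change PowerSeries.constantCoeff (th N (B + al * N) al (-1) * th N (B + al * N) al 0 *
        th N (B + al * N) al 1 : RR k) = _
      rw [map_mul, map_mul, hc0, hc0, hc0, ← T_add, ← T_add]
      congr 1
      ring)
    (by
      change PowerSeries.constantCoeff (th N (B + al * N) al 0 ^ 3 : RR k) = _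
      rw [map_pow, hc0, T_pow]
      congr 1
      push_cast
      ring)
    (by
      change PowerSeries.constantCoeff (th N (B + al * N) al 1 ^ 3 : RR k) = _
      rw [map_pow, hc0, T_pow]
      congr 1
      push_cast
      ring)
    (by
      change PowerSeries.constantCoeff (th N (B + al * N) al (-1) ^ 3 : RR k) = _
      rw [map_pow, hc0, T_pow]
      congr 1
      push_cast
      ring)
  refine ⟨τ0, τ1, τ2, hτ0, hτ1, hτ2, ?_, hrel⟩
  rintro ⟨rfl, rfl⟩
  have hrel' : (th N (B + al * N) al (-1) * th N (B + al * N) al 0 * th N (B + al * N) al 1 : RR k)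
      = emb τ0 * th N (B + al * N) al 0 ^ 3 := by
    have := hrel
    simp only [map_zero, zero_mul, add_zero] at this
    exact this
  have hu : IsUnit (th N (B + al * N) al 0 : RR k) := isUnit_th
  have hcancel : (th N (B + al * N) al (-1) * th N (B + al * N) al 1 : RR k) =
      emb τ0 * (th N (B + al * N) al 0 * th N (B + al * N) al 0) := by
    apply hu.mul_left_cancel
    linear_combination hrel'
  exact mul_ne (k := k) (B' := B + al * N) hN (fun e l => Qf N (B + al * N) e l)
    (fun e l => by rw [two_Qf]; ring)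
    (fun e => th N (B + al * N) al e)
    (fun e l he1 he2 => coef_th_pos h1 h2 he1 he2 l)
    (fun e x s _ _ h => coef_th_ne h) τ0 hcancel

/-- The same, in the form required by `AsmFinal.core_aux`. -/
theorem cubic' {N B al : ℤ} (h1 : N < B + al * N) (h2 : B + al * N < 2 * N) :
    ∃ t0 t1 t2 : PowerSeries k,
      (th N (B + al * N) al (-1) : RR k) * th N (B + al * N) al 0 * th N (B + al * N) al 1 =
        algebraMap (PowerSeries k) (RR k) t0 * (th N (B + al * N) al 0) ^ 3
          + algebraMap (PowerSeries k) (RR k) t1 * (th N (B + al * N) al 1) ^ 3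
          + algebraMap (PowerSeries k) (RR k) t2 * (th N (B + al * N) al (-1)) ^ 3
      ∧ PowerSeries.coeff 0 t0 = 1 ∧ PowerSeries.coeff 0 t1 = 0 ∧ PowerSeries.coeff 0 t2 = 0
      ∧ (t1 ≠ 0 ∨ t2 ≠ 0) := by
  obtain ⟨τ0, τ1, τ2, h0, h1', h2', hne, hrel⟩ := cubic (k := k) h1 h2
  refine ⟨τ0, τ1, τ2, hrel, ?_, ?_, ?_, ?_⟩
  · rw [PowerSeries.coeff_zero_eq_constantCoeff_apply]; exact h0
  · rw [PowerSeries.coeff_zero_eq_constantCoeff_apply]; exact h1'
  · rw [PowerSeries.coeff_zero_eq_constantCoeff_apply]; exact h2'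
  · by_contra hcon
    push Not at hcon
    exact hne hcon

end Crest.Agent.R259.Cubic
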