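import Crest.Agent.R259.Kernel

/-!
R259 (Nagata): `g`-adic expansion. For `g = XY - τ₀X³ - τ₁ - τ₂Y³` with `τ₀` a unit, every `F` of
total degree `≤ 3n` is `∑_{l ≤ n} g^l F_l` with `deg_X F_l ≤ 2`, `totalDegree F_l ≤ 3(n-l)`.
-/

set_option autoImplicit false

namespace Crest.Agent.R259.Kernel

open MvPolynomial

variable {A : Type*} [CommRing A]

theorem mon_eq (a b : ℕ) : (X 0 ^ a * X 1 ^ b : MvPolynomial (Fin 2) A)
    = monomial (Finsupp.single 0 a + Finsupp.single 1 b) 1 := by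
  rw [X_pow_eq_monomial, X_pow_eq_monomial, monomial_mul, one_mul]

theorem fin2_finsupp (s : Fin 2 →₀ ℕ) : s = Finsupp.single 0 (s 0) + Finsupp.single 1 (s 1) := by
  ext i
  fin_cases i <;> simp

theorem sum_fin2 (s : Fin 2 →₀ ℕ) : (s.sum fun _ e => e) = s 0 + s 1 := by
  rw [Finsupp.sum_fintype _ _ (by simp)]
  simp

/-- Remainders: `deg_X ≤ 2` and total degree `≤ D`. -/
noncomputable def Rem (A : Type*) [CommRing A] (D : ℕ) : Submodule A (MvPolynomial (Fin 2) A) :=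
  restrictSupport A {s | s 0 ≤ 2 ∧ s 0 + s 1 ≤ D}

theorem mem_Rem {D : ℕ} {p : MvPolynomial (Fin 2) A} :
    p ∈ Rem A D ↔ p.degreeOf 0 ≤ 2 ∧ p.totalDegree ≤ D := by
  unfold Rem
  rw [← mem_restrictTotalDegree, restrictTotalDegree, mem_restrictSupport_iff,
    mem_restrictSupport_iff, degreeOf_le_iff]
  simp only [sum_fin2]
  constructor
  · intro h
    exact ⟨fun s hs => (h hs).1, fun s hs => (h hs).2⟩
  · rintro ⟨h1, h2⟩ s hs
    exact ⟨h1 s hs, h2 hs⟩

theorem step_monomial {τ0 τ1 τ2 u : A} (hu : u * τ0 = 1) (D : ℕ) :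
    ∀ a b : ℕ, a + b ≤ D + 3 → (X 0 ^ a * X 1 ^ b : MvPolynomial (Fin 2) A) ∈
      (restrictTotalDegree (Fin 2) A D).map (LinearMap.mulLeft A (cubic τ0 τ1 τ2))
        ⊔ Rem A (D + 3) := by
  intro a
  induction a using Nat.strong_induction_on with
  | _ a ih =>
    intro b hab
    by_cases ha : a ≤ 2
    · refine Submodule.mem_sup_right ?_
      rw [mon_eq]
      unfold Rem
      rw [monomial_mem_restrictSupport]
      left
      simp
      omega
    · obtain ⟨c, rfl⟩ : ∃ c, a = c + 3 := ⟨a - 3, by omega⟩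
      have key : (X 0 ^ (c + 3) * X 1 ^ b : MvPolynomial (Fin 2) A)
          = u • (X 0 ^ (c + 1) * X 1 ^ (b + 1)) - (u * τ1) • (X 0 ^ c * X 1 ^ b)
            - (u * τ2) • (X 0 ^ c * X 1 ^ (b + 3))
            - u • (cubic τ0 τ1 τ2 * (X 0 ^ c * X 1 ^ b)) := by
        have h1 : (C u * C τ0 : MvPolynomial (Fin 2) A) = 1 := by
          rw [← C_mul, hu, C_1]
        simp only [smul_eq_C_mul, cubic, C_mul]
        linear_combination (-(X 0 ^ (c + 3) * X 1 ^ b : MvPolynomial (Fin 2) A)) * h1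
      rw [key]
      refine Submodule.sub_mem _ (Submodule.sub_mem _ (Submodule.sub_mem _ ?_ ?_) ?_) ?_
      · exact Submodule.smul_mem _ _ (ih (c + 1) (by omega) (b + 1) (by omega))
      · exact Submodule.smul_mem _ _ (ih c (by omega) b (by omega))
      · exact Submodule.smul_mem _ _ (ih c (by omega) (b + 3) (by omega))
      · refine Submodule.smul_mem _ _ (Submodule.mem_sup_left ?_)
        refine Submodule.mem_map.2 ⟨X 0 ^ c * X 1 ^ b, ?_, rfl⟩
        rw [mon_eq, restrictTotalDegree, monomial_mem_restrictSupport]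
        left
        simp only [Set.mem_ofPred_eq, sum_fin2]
        simp
        omega

theorem step {τ0 τ1 τ2 : A} (h0 : IsUnit τ0) (D : ℕ) (F : MvPolynomial (Fin 2) A)
    (hF : F.totalDegree ≤ D + 3) : ∃ Q R : MvPolynomial (Fin 2) A,
      F = cubic τ0 τ1 τ2 * Q + R ∧ Q.totalDegree ≤ D ∧ R.degreeOf 0 ≤ 2 ∧
        R.totalDegree ≤ D + 3 := by
  obtain ⟨u, hu⟩ := h0.exists_left_inv
  have hmem : F ∈ (restrictTotalDegree (Fin 2) A D).map (LinearMap.mulLeft A (cubic τ0 τ1 τ2))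
        ⊔ Rem A (D + 3) := by
    rw [F.as_sum]
    refine Submodule.sum_mem _ fun s hs => ?_
    have h1 : monomial s (coeff s F) = (coeff s F) • (X 0 ^ (s 0) * X 1 ^ (s 1)) := by
      rw [mon_eq, ← fin2_finsupp, smul_monomial, smul_eq_mul, mul_one]
    rw [h1]
    refine Submodule.smul_mem _ _ (step_monomial hu D _ _ ?_)
    rw [← sum_fin2]
    exact (le_totalDegree hs).trans hF
  obtain ⟨y, hy, z, hz, rfl⟩ := Submodule.mem_sup.1 hmem
  obtain ⟨Q, hQ, rfl⟩ := Submodule.mem_map.1 hy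
  obtain ⟨hz1, hz2⟩ := mem_Rem.1 hz
  exact ⟨Q, z, rfl, (mem_restrictTotalDegree _ _ _).1 hQ, hz1, hz2⟩

/-- **g-adic expansion** (K2). -/
theorem gadic {τ0 τ1 τ2 : A} (h0 : IsUnit τ0) : ∀ (n : ℕ) (F : MvPolynomial (Fin 2) A),
    F.totalDegree ≤ 3 * n → ∃ G : ℕ → MvPolynomial (Fin 2) A,
      (∀ l ≤ n, (G l).degreeOf 0 ≤ 2 ∧ (G l).totalDegree ≤ 3 * (n - l)) ∧
      F = ∑ l ∈ Finset.range (n + 1), cubic τ0 τ1 τ2 ^ l * G l := by
  intro n
  induction n with
  | zero =>
    intro F hF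
    refine ⟨fun _ => F, ?_, by simp⟩
    intro l hl
    obtain rfl : l = 0 := by omega
    refine ⟨(degreeOf_le_totalDegree F 0).trans (hF.trans (by norm_num)), by simpa using hF⟩
  | succ n ih =>
    intro F hF
    obtain ⟨Q, R, hQR, hQ, hR1, hR2⟩ := step (τ1 := τ1) (τ2 := τ2) h0 (3 * n) F (by omega)
    obtain ⟨G, hG, hsum⟩ := ih Q hQ
    refine ⟨fun l => Nat.casesOn l R G, ?_, ?_⟩
    · intro l hl
      cases l with
      | zero => exact ⟨hR1, by simpa [Nat.mul_succ] using hR2⟩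
      | succ l =>
        obtain ⟨h1, h2⟩ := hG l (by omega)
        refine ⟨h1, ?_⟩
        have : 3 * (n + 1 - (l + 1)) = 3 * (n - l) := by congr 1; omega
        rw [this]; exact h2
    · rw [Finset.sum_range_succ', hQR]
      congr 1
      · rw [hsum, Finset.mul_sum]
        refine Finset.sum_congr rfl fun l _ => ?_
        simp only [pow_succ]
        ring
      · simp

end Crest.Agent.R259.Kernel
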