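import Mathlib

/-!
R259 (Nagata): the kernel lemma for the plane cubic `g = XY - τ₀X³ - τ₁ - τ₂Y³` and the
`g`-adic expansion of a polynomial of total degree `≤ 3n`.
-/

set_option autoImplicit false

namespace Crest.Agent.R259.Kernel

open Polynomial

section Poly

variable {O : Type*} [CommRing O] [IsDomain O]

omit [IsDomain O] in
theorem coeffs_zero {c3 c2 c1 c0 : O}
    (h : C c3 * X ^ 3 + C c2 * X ^ 2 + C c1 * X + C c0 = 0) :
    c3 = 0 ∧ c2 = 0 ∧ c1 = 0 ∧ c0 = 0 := by
  refine ⟨?_, ?_, ?_, ?_⟩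
  · simpa [coeff_X, coeff_C, coeff_X_pow] using congrArg (fun p => p.coeff 3) h
  · simpa [coeff_X, coeff_C, coeff_X_pow] using congrArg (fun p => p.coeff 2) h
  · simpa [coeff_X, coeff_C, coeff_X_pow] using congrArg (fun p => p.coeff 1) h
  · simpa [coeff_X, coeff_C, coeff_X_pow] using congrArg (fun p => p.coeff 0) h

/-- A root in `O[Y]` of the monic cubic `T³ - uY·T + u(τ₁ + τ₂Y³)` cannot exist. -/
theorem no_root {u τ1 τ2 : O} (hu : IsUnit u) (h2 : ¬ IsUnit τ2) (h12 : τ1 ≠ 0 ∨ τ2 ≠ 0)
    (ρ : O[X]) (h : ρ ^ 3 - C u * X * ρ + (C (u * τ1) + C (u * τ2) * X ^ 3) = 0) : False := by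
  have hdeg : ρ.natDegree ≤ 1 := by
    have h3 : ρ ^ 3 = C u * X * ρ - (C (u * τ1) + C (u * τ2) * X ^ 3) := by
      linear_combination h
    have hl : (ρ ^ 3).natDegree = 3 * ρ.natDegree := by
      rw [natDegree_pow]
    have hr : (C u * X * ρ - (C (u * τ1) + C (u * τ2) * X ^ 3)).natDegree
        ≤ max (1 + ρ.natDegree) 3 := by
      refine (natDegree_sub_le _ _).trans (max_le_max ?_ ?_)
      · refine natDegree_mul_le.trans ?_
        gcongr
        refine natDegree_mul_le.trans ?_
        simp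
      · refine (natDegree_add_le _ _).trans ?_
        refine max_le ?_ ?_
        · exact (natDegree_C _).le.trans (by norm_num)
        · refine natDegree_mul_le.trans ?_
          rw [natDegree_C, natDegree_X_pow]
    rw [← h3, hl] at hr
    rcases le_max_iff.1 hr with h' | h' <;> omega
  obtain ⟨a, b, rfl⟩ := exists_eq_X_add_C_of_natDegree_le_one hdeg
  have hexp : C (a ^ 3 + u * τ2) * X ^ 3 + C (3 * a ^ 2 * b - u * a) * X ^ 2
      + C (3 * a * b ^ 2 - u * b) * X + C (b ^ 3 + u * τ1) = 0 := by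
    have h3 : (C (3 : O) : O[X]) = 3 := rfl
    rw [← h]
    simp only [C_add, C_sub, C_mul, C_pow, h3]
    ring
  obtain ⟨e3, e2, e1, e0⟩ := coeffs_zero hexp
  by_cases ha : a = 0
  · subst ha
    have hb : b = 0 := by
      have : u * b = 0 := by linear_combination -e1
      rcases mul_eq_zero.1 this with h' | h'
      · exact absurd h' hu.ne_zero
      · exact h'
    subst hb
    have t2 : τ2 = 0 := by
      have : u * τ2 = 0 := by linear_combination e3
      rcases mul_eq_zero.1 this with h' | h'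
      · exact absurd h' hu.ne_zero
      · exact h'
    have t1 : τ1 = 0 := by
      have : u * τ1 = 0 := by linear_combination e0
      rcases mul_eq_zero.1 this with h' | h'
      · exact absurd h' hu.ne_zero
      · exact h'
    rcases h12 with h' | h'
    · exact h' t1
    · exact h' t2
  · have hab : 3 * a * b = u := by
      have : a * (3 * a * b - u) = 0 := by linear_combination e2
      rcases mul_eq_zero.1 this with h' | h'
      · exact absurd h' ha
      · linear_combination h'
    have hau : IsUnit a := by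
      have : IsUnit (a * (3 * b)) := by
        have h' : a * (3 * b) = u := by linear_combination hab
        rw [h']; exact hu
      exact isUnit_of_mul_isUnit_left this
    apply h2
    have : u * τ2 = -a ^ 3 := by linear_combination e3
    have h' : IsUnit (u * τ2) := by
      rw [this]; exact (hau.pow 3).neg
    exact isUnit_of_mul_isUnit_right h'

/-- the monic cubic `T³ - uY·T + u(τ₁ + τ₂Y³)` over `O[Y]`. -/
noncomputable def mcubic (u τ1 τ2 : O) : O[X][X] :=
  X ^ 3 - C (C u * X) * X + C (C (u * τ1) + C (u * τ2) * X ^ 3)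

theorem mcubic_natDegree (u τ1 τ2 : O) : (mcubic u τ1 τ2).natDegree = 3 := by
  unfold mcubic
  compute_degree!

omit [IsDomain O] in
theorem mcubic_monic (u τ1 τ2 : O) : (mcubic u τ1 τ2).Monic := by
  unfold mcubic
  monicity!

theorem mcubic_irreducible {u τ1 τ2 : O} (hu : IsUnit u) (h2 : ¬ IsUnit τ2)
    (h12 : τ1 ≠ 0 ∨ τ2 ≠ 0) : Irreducible (mcubic u τ1 τ2) := by
  rw [(mcubic_monic u τ1 τ2).irreducible_iff_roots_eq_zero_of_degree_le_three
    (by rw [mcubic_natDegree]; norm_num) (by rw [mcubic_natDegree])]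
  rw [Multiset.eq_zero_iff_forall_notMem]
  intro ρ hρ
  have hr := isRoot_of_mem_roots hρ
  refine no_root hu h2 h12 ρ ?_
  have : eval ρ (mcubic u τ1 τ2) = 0 := hr
  rw [← this]
  simp [mcubic]

/-- Kernel lemma, polynomial form: `S` a domain over `O[Y]` (i.e. `y ∈ S` transcendental), `x ∈ S` a
root of the monic cubic. Then `x` is not a root of any non-zero polynomial of degree `≤ 2`. -/
theorem kernel_poly [IsIntegrallyClosed O[X]] {S : Type*} [CommRing S] [IsDomain S]
    [Algebra O[X] S] (hinj : Function.Injective (algebraMap O[X] S))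
    {u τ1 τ2 : O} (hu : IsUnit u) (h2 : ¬ IsUnit τ2) (h12 : τ1 ≠ 0 ∨ τ2 ≠ 0)
    {x : S} (hx : aeval x (mcubic u τ1 τ2) = 0) (A : O[X][X]) (hA : A.natDegree ≤ 2)
    (hA0 : aeval x A = 0) : A = 0 := by
  have : FaithfulSMul O[X] S := (faithfulSMul_iff_algebraMap_injective _ _).2 hinj
  have : Module.IsTorsionFree O[X] S := inferInstance
  have hint : IsIntegral O[X] x := ⟨mcubic u τ1 τ2, mcubic_monic u τ1 τ2, hx⟩
  obtain ⟨q, hq⟩ := minpoly.isIntegrallyClosed_dvd hint hx
  have hirr := mcubic_irreducible hu h2 h12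
  have hqu : IsUnit q := by
    rcases hirr.isUnit_or_isUnit hq with h' | h'
    · exact absurd h' (minpoly.not_isUnit _ _)
    · exact h'
  by_contra hne
  have hdvd := minpoly.isIntegrallyClosed_dvd hint hA0
  have h1 : mcubic u τ1 τ2 ∣ A := by
    rw [hq]
    exact (hqu.mul_right_dvd).2 hdvd
  have := natDegree_le_of_dvd h1 hne
  rw [mcubic_natDegree] at this
  omega

end Poly

section Mv

/-- the cubic `g = XY - τ₀X³ - τ₁ - τ₂Y³` -/
noncomputable def cubic {A : Type*} [CommRing A] (τ0 τ1 τ2 : A) : MvPolynomial (Fin 2) A :=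
  MvPolynomial.X 0 * MvPolynomial.X 1 - MvPolynomial.C τ0 * MvPolynomial.X 0 ^ 3
    - MvPolynomial.C τ1 - MvPolynomial.C τ2 * MvPolynomial.X 1 ^ 3

variable {O : Type*} [CommRing O]

/-- `O[x, y] → O[Y][T]`, `x ↦ T`, `y ↦ Y`. -/
noncomputable def toPP : MvPolynomial (Fin 2) O →+* O[X][X] :=
  (Polynomial.mapRingHom (RingHomClass.toRingHom (MvPolynomial.uniqueAlgEquiv O (Fin 1)))).comp
    (RingHomClass.toRingHom (MvPolynomial.finSuccEquiv O 1))

theorem toPP_apply (A : MvPolynomial (Fin 2) O) :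
    toPP A = Polynomial.map (RingHomClass.toRingHom (MvPolynomial.uniqueAlgEquiv O (Fin 1)))
      (MvPolynomial.finSuccEquiv O 1 A) := rfl

theorem toPP_C (a : O) : toPP (MvPolynomial.C a : MvPolynomial (Fin 2) O)
    = Polynomial.C (Polynomial.C a) := by
  simp [toPP_apply, MvPolynomial.finSuccEquiv_apply]

theorem toPP_X0 : toPP (MvPolynomial.X 0 : MvPolynomial (Fin 2) O) = Polynomial.X := by
  simp [toPP_apply, MvPolynomial.finSuccEquiv_apply]

theorem toPP_X1 : toPP (MvPolynomial.X 1 : MvPolynomial (Fin 2) O)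
    = Polynomial.C Polynomial.X := by
  have h : (MvPolynomial.finSuccEquiv O 1) (MvPolynomial.X 1)
      = Polynomial.C (MvPolynomial.X 0) := by
    have : (MvPolynomial.X 1 : MvPolynomial (Fin 2) O) = MvPolynomial.X (Fin.succ 0) := rfl
    rw [this, MvPolynomial.finSuccEquiv_X_succ]
  rw [toPP_apply, h]
  simp

theorem toPP_injective : Function.Injective (toPP (O := O)) := by
  intro a b hab
  rw [toPP_apply, toPP_apply] at hab
  exact (MvPolynomial.finSuccEquiv O 1).injective
    (Polynomial.map_injective _ (MvPolynomial.uniqueAlgEquiv O (Fin 1)).injective hab)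

theorem natDegree_toPP (A : MvPolynomial (Fin 2) O) : (toPP A).natDegree = A.degreeOf 0 := by
  rw [toPP_apply, ← MvPolynomial.natDegree_finSuccEquiv]
  exact Polynomial.natDegree_map_eq_of_injective
    (MvPolynomial.uniqueAlgEquiv O (Fin 1)).injective _

theorem eval_toPP {S : Type*} [CommRing S] [Algebra O S] (x y : S)
    (A : MvPolynomial (Fin 2) O) :
    Polynomial.eval₂ (Polynomial.aeval y : O[X] →ₐ[O] S).toRingHom x (toPP A)
      = MvPolynomial.aeval ![x, y] A := by
  have : ((Polynomial.eval₂RingHom (Polynomial.aeval y : O[X] →ₐ[O] S).toRingHom x).comp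
      (toPP (O := O))) = (MvPolynomial.aeval ![x, y] : MvPolynomial (Fin 2) O →ₐ[O] S).toRingHom := by
    refine MvPolynomial.ringHom_ext ?_ ?_
    · intro r
      simp [toPP_C]
    · intro i
      fin_cases i
      · simp [toPP_X0]
      · simp [toPP_X1]
  exact congrArg (fun f => f A) this

/-- **Kernel lemma** (K1). -/
theorem kernel [IsDomain O] [IsIntegrallyClosed O[X]] {S : Type*} [CommRing S] [IsDomain S]
    [Algebra O S] {τ0 τ1 τ2 : O} (h0 : IsUnit τ0) (h2 : ¬ IsUnit τ2) (h12 : τ1 ≠ 0 ∨ τ2 ≠ 0)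
    {x y : S} (hy : Transcendental O y)
    (hxy : x * y = algebraMap O S τ0 * x ^ 3 + algebraMap O S τ1 + algebraMap O S τ2 * y ^ 3)
    (A : MvPolynomial (Fin 2) O) (hA : A.degreeOf 0 ≤ 2)
    (hA0 : MvPolynomial.aeval ![x, y] A = 0) : A = 0 := by
  obtain ⟨u, hu⟩ := h0.exists_left_inv
  have huu : IsUnit u := IsUnit.of_mul_eq_one τ0 hu
  let _ : Algebra O[X] S := (Polynomial.aeval y : O[X] →ₐ[O] S).toRingHom.toAlgebra
  have halg : algebraMap O[X] S = (Polynomial.aeval y : O[X] →ₐ[O] S).toRingHom := rfl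
  have hinj : Function.Injective (algebraMap O[X] S) := by
    rw [halg]
    exact transcendental_iff_injective.1 hy
  have key := kernel_poly (S := S) hinj huu h2 h12 (x := x) ?_ (toPP A) ?_ ?_
  · apply toPP_injective
    rw [key, map_zero]
  · have hus : algebraMap O S u * algebraMap O S τ0 = 1 := by
      rw [← map_mul, hu, map_one]
    rw [Polynomial.aeval_def, halg]
    simp only [mcubic, Polynomial.eval₂_add, Polynomial.eval₂_sub, Polynomial.eval₂_mul,
      Polynomial.eval₂_X_pow, Polynomial.eval₂_C, Polynomial.eval₂_X]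
    simp only [AlgHom.toRingHom_eq_coe, RingHom.coe_coe, map_add, map_mul, Polynomial.aeval_C,
      Polynomial.aeval_X, map_pow]
    linear_combination (-(algebraMap O S u)) * hxy - x ^ 3 * hus
  · rw [natDegree_toPP]; exact hA
  · rw [Polynomial.aeval_def, halg, eval_toPP, hA0]

end Mv

end Crest.Agent.R259.Kernel
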