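import Crest.Agent.R259.Kernel

/-!
R259 (Nagata): the kernel lemma in the three-polynomial form used by the assembly, and the
transcendence of a power series in `t` over Laurent polynomials whose constant term is `T (-2)`.
-/

set_option autoImplicit false

namespace Crest.Agent.R259.Kernel

open Polynomial

/-- Kernel lemma, three-polynomial form. -/
theorem hker {O S : Type*} [CommRing O] [IsDomain O] [IsIntegrallyClosed O[X]] [CommRing S]
    [IsDomain S] [Algebra O S] {τ0 τ1 τ2 : O} (h0 : IsUnit τ0) (h2 : ¬ IsUnit τ2)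
    (h12 : τ1 ≠ 0 ∨ τ2 ≠ 0) {x y : S} (hy : Transcendental O y)
    (hxy : x * y = algebraMap O S τ0 * x ^ 3 + algebraMap O S τ1 + algebraMap O S τ2 * y ^ 3)
    (p0 p1 p2 : O[X]) (h : aeval y p0 + x * aeval y p1 + x ^ 2 * aeval y p2 = 0) :
    p0 = 0 ∧ p1 = 0 ∧ p2 = 0 := by
  obtain ⟨u, hu⟩ := h0.exists_left_inv
  have huu : IsUnit u := IsUnit.of_mul_eq_one τ0 hu
  let _ : Algebra O[X] S := (Polynomial.aeval y : O[X] →ₐ[O] S).toRingHom.toAlgebra
  have halg : algebraMap O[X] S = (Polynomial.aeval y : O[X] →ₐ[O] S).toRingHom := rfl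
  have hinj : Function.Injective (algebraMap O[X] S) := by
    rw [halg]
    exact transcendental_iff_injective.1 hy
  have key := kernel_poly (S := S) hinj huu h2 h12 (x := x) ?_
    (C p2 * X ^ 2 + C p1 * X + C p0) ?_ ?_
  · have c0 := congrArg (fun q => q.coeff 0) key
    have c1 := congrArg (fun q => q.coeff 1) key
    have c2 := congrArg (fun q => q.coeff 2) key
    simp [coeff_X, coeff_C, coeff_X_pow] at c0 c1 c2
    exact ⟨c0, c1, c2⟩
  · have hus : algebraMap O S u * algebraMap O S τ0 = 1 := by
      rw [← map_mul, hu, map_one]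
    rw [Polynomial.aeval_def, halg]
    simp only [mcubic, Polynomial.eval₂_add, Polynomial.eval₂_sub, Polynomial.eval₂_mul,
      Polynomial.eval₂_X_pow, Polynomial.eval₂_C, Polynomial.eval₂_X]
    simp only [AlgHom.toRingHom_eq_coe, RingHom.coe_coe, map_add, map_mul, Polynomial.aeval_C,
      Polynomial.aeval_X, map_pow]
    linear_combination (-(algebraMap O S u)) * hxy - x ^ 3 * hus
  · exact natDegree_quadratic_le
  · rw [Polynomial.aeval_def, halg]
    simp only [Polynomial.eval₂_add, Polynomial.eval₂_mul,
      Polynomial.eval₂_X_pow, Polynomial.eval₂_C, Polynomial.eval₂_X]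
    simp only [AlgHom.toRingHom_eq_coe, RingHom.coe_coe]
    linear_combination h

section PS

variable {k : Type*} [Field k]

theorem coeff_aeval_T (p : k[X]) (n : ℕ) :
    (Polynomial.aeval (LaurentPolynomial.T (-2) : LaurentPolynomial k) p).coeff
      ((n : ℤ) * (-2)) = p.coeff n := by
  induction p using Polynomial.induction_on' with
  | add p q hp hq =>
    rw [map_add, Polynomial.coeff_add, ← hp, ← hq]
    rfl
  | monomial m a =>
    rw [Polynomial.aeval_monomial, LaurentPolynomial.T_pow, Polynomial.coeff_monomial]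
    have : (algebraMap k (LaurentPolynomial k)) a = LaurentPolynomial.C a := rfl
    rw [this, ← LaurentPolynomial.single_eq_C_mul_T, AddMonoidAlgebra.coeff_single,
      Finsupp.single_apply]
    by_cases h : m = n
    · subst h; simp
    · rw [if_neg h, if_neg]
      intro h'
      apply h
      omega

theorem transcendental_T : Transcendental k (LaurentPolynomial.T (-2) : LaurentPolynomial k) := by
  rw [transcendental_iff]
  intro p hp
  ext n
  rw [← coeff_aeval_T p n, hp]
  simp

theorem X_dvd_coeff {y : PowerSeries (LaurentPolynomial k)}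
    (hy : PowerSeries.constantCoeff y = LaurentPolynomial.T (-2)) (p : (PowerSeries k)[X])
    (hp : aeval y p = 0) : C (PowerSeries.X : PowerSeries k) ∣ p := by
  rw [Polynomial.C_dvd_iff_dvd_coeff]
  have h1 : aeval (LaurentPolynomial.T (-2) : LaurentPolynomial k)
      (p.map (PowerSeries.constantCoeff (R := k))) = 0 := by
    have h2 := congrArg (PowerSeries.constantCoeff (R := LaurentPolynomial k)) hp
    rw [map_zero, Polynomial.aeval_def, Polynomial.hom_eval₂, hy] at h2
    rw [Polynomial.aeval_def, Polynomial.eval₂_map, ← h2]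
    congr 1
  have h3 := transcendental_iff.1 transcendental_T _ h1
  intro n
  rw [PowerSeries.X_dvd_iff]
  have := congrArg (fun q => q.coeff n) h3
  simpa using this

theorem algebraMap_X_ne_zero :
    algebraMap (PowerSeries k) (PowerSeries (LaurentPolynomial k)) PowerSeries.X ≠ 0 := by
  have h1 : algebraMap (PowerSeries k) (PowerSeries (LaurentPolynomial k))
      = PowerSeries.map (algebraMap k (LaurentPolynomial k)) := rfl
  rw [h1, PowerSeries.map_X]
  exact PowerSeries.X_ne_zero

/-- If the constant term (in `t`) of `y` is `T (-2)` then `y` is transcendental over `k[[t]]`. -/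
theorem transcendental_of_constCoeff {y : PowerSeries (LaurentPolynomial k)}
    (hy : PowerSeries.constantCoeff y = LaurentPolynomial.T (-2)) :
    Transcendental (PowerSeries k) y := by
  rw [transcendental_iff]
  have key : ∀ (e : ℕ) (p : (PowerSeries k)[X]), aeval y p = 0 →
      ∀ n, (PowerSeries.X : PowerSeries k) ^ e ∣ p.coeff n := by
    intro e
    induction e with
    | zero => intro p _ n; simp
    | succ e ih =>
      intro p hp n
      obtain ⟨q, rfl⟩ := X_dvd_coeff hy p hp
      rw [map_mul, Polynomial.aeval_C] at hp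
      have hq : aeval y q = 0 := by
        rcases mul_eq_zero.1 hp with h | h
        · exact absurd h algebraMap_X_ne_zero
        · exact h
      rw [Polynomial.coeff_C_mul, pow_succ']
      exact mul_dvd_mul_left _ (ih q hq n)
  intro p hp
  ext n m
  have := PowerSeries.X_pow_dvd_iff.1 (key (m + 1) p hp n) m (Nat.lt_succ_self m)
  simpa using this

/-- Kernel lemma for `O = k[[t]]`, `S = k[z,1/z][[t]]`: exactly the hypothesis `hker` of the
assembly. -/
theorem hker_ps {τ0 τ1 τ2 : PowerSeries k} (h0 : PowerSeries.constantCoeff τ0 ≠ 0)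
    (h2 : PowerSeries.constantCoeff τ2 = 0) (h12 : τ1 ≠ 0 ∨ τ2 ≠ 0)
    {x y : PowerSeries (LaurentPolynomial k)}
    (hy : PowerSeries.constantCoeff y = LaurentPolynomial.T (-2))
    (hxy : x * y = algebraMap (PowerSeries k) (PowerSeries (LaurentPolynomial k)) τ0 * x ^ 3
      + algebraMap (PowerSeries k) (PowerSeries (LaurentPolynomial k)) τ1
      + algebraMap (PowerSeries k) (PowerSeries (LaurentPolynomial k)) τ2 * y ^ 3)
    (p0 p1 p2 : (PowerSeries k)[X])
    (h : aeval y p0 + x * aeval y p1 + x ^ 2 * aeval y p2 = 0) :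
    p0 = 0 ∧ p1 = 0 ∧ p2 = 0 := by
  refine hker ?_ ?_ h12 (transcendental_of_constCoeff hy) hxy p0 p1 p2 h
  · rw [PowerSeries.isUnit_iff_constantCoeff]
    exact isUnit_iff_ne_zero.2 h0
  · rw [PowerSeries.isUnit_iff_constantCoeff, h2]
    exact not_isUnit_zero

end PS

end Crest.Agent.R259.Kernel
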