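import Crest.Prelude.Def_VanishingOrder

/-!
# R259 (Nagata): reductions

* `vto_iff`, `vto_mul`, `vto_pow`, `vto_prod` : calculus of orders of vanishing over any ring;
* `exists_rows_det_ne_zero` : a family of linear forms with trivial common kernel contains a
  square invertible subsystem;
* `exists_minor` : transfer of "no nonzero curve" from one tuple over one field to the very general
  tuple;
* `nagata_of_core`.
-/

set_option autoImplicit false

open MvPolynomial Crest.AlgGeometry

namespace Crest.Agent.R259.Reduce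

section Vanish

variable {R : Type*} [CommRing R] {σ : Type*}

/-- The shifted polynomial `f (X + a)`. -/
noncomputable def shift (a : σ → R) : MvPolynomial σ R →ₐ[R] MvPolynomial σ R :=
  aeval (fun j => X j + C (a j))

theorem vto_iff (f : MvPolynomial σ R) (a : σ → R) (m : ℕ) :
    VanishesToOrder f a m ↔ ∀ e : σ →₀ ℕ, e.degree < m → coeff e (shift a f) = 0 := by
  unfold VanishesToOrder
  change (∀ k < m, homogeneousComponent k (shift a f) = 0) ↔ _
  constructor
  · intro h e he
    have := congrArg (coeff e) (h e.degree he)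
    rw [coeff_homogeneousComponent] at this
    simpa using this
  · intro h k hk
    ext e
    rw [coeff_homogeneousComponent]
    split_ifs with hek
    · rw [h e (by rw [hek]; exact hk)]; simp
    · simp

theorem vto_zero_order (f : MvPolynomial σ R) (a : σ → R) : VanishesToOrder f a 0 := by
  intro k hk; exact absurd hk (by omega)

theorem vto_mul {f g : MvPolynomial σ R} {a : σ → R} {m n : ℕ}
    (hf : VanishesToOrder f a m) (hg : VanishesToOrder g a n) :
    VanishesToOrder (f * g) a (m + n) := by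
  classical
  rw [vto_iff] at *
  intro e he
  rw [map_mul, coeff_mul]
  refine Finset.sum_eq_zero ?_
  rintro ⟨u, v⟩ huv
  rw [Finset.HasAntidiagonal.mem_antidiagonal] at huv
  have hdeg : u.degree + v.degree = e.degree := by
    rw [← map_add, huv]
  rcases lt_or_ge u.degree m with hu | hu
  · rw [hf u hu, zero_mul]
  · rw [hg v (by omega), mul_zero]

theorem vto_pow {f : MvPolynomial σ R} {a : σ → R} {m : ℕ}
    (hf : VanishesToOrder f a m) (k : ℕ) : VanishesToOrder (f ^ k) a (k * m) := by
  induction k with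
  | zero => simpa using vto_zero_order _ _
  | succ k ih =>
    rw [pow_succ, Nat.succ_mul]
    exact vto_mul ih hf

theorem vto_prod {ι : Type*} (s : Finset ι) (f : ι → MvPolynomial σ R) (a : σ → R) (m : ι → ℕ)
    (h : ∀ i ∈ s, VanishesToOrder (f i) a (m i)) :
    VanishesToOrder (∏ i ∈ s, f i) a (∑ i ∈ s, m i) := by
  classical
  induction s using Finset.induction_on with
  | empty => simpa using vto_zero_order _ _
  | insert i s hi ih =>
    rw [Finset.prod_insert hi, Finset.sum_insert hi]
    exact vto_mul (h i (Finset.mem_insert_self _ _))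
      (ih fun j hj => h j (Finset.mem_insert_of_mem hj))

end Vanish

section Rows

/-- A family of linear forms on `K^J` with trivial common kernel contains `J` many forms with
invertible matrix. -/
theorem exists_rows_det_ne_zero {K : Type*} [Field K] {I J : Type*} [Fintype J] [DecidableEq J]
    (A : I → J → K) (h : ∀ c : J → K, (∀ i, ∑ j, A i j * c j = 0) → c = 0) :
    ∃ ρ : J → I, (Matrix.of fun j => A (ρ j)).det ≠ 0 := by
  classical
  obtain ⟨κ, a, ha, hsp, hli⟩ := exists_linearIndependent' K A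
  -- the span is everything
  have htop : Submodule.span K (Set.range A) = ⊤ := by
    by_contra hne
    obtain ⟨φ, hφ0, hφ⟩ := Submodule.exists_dual_map_eq_bot_of_lt_top
      (lt_top_iff_ne_top.mpr hne) inferInstance
    apply hφ0
    have hφ' : ∀ i, φ (A i) = 0 := by
      intro i
      have : φ (A i) ∈ (Submodule.span K (Set.range A)).map φ :=
        Submodule.mem_map_of_mem (Submodule.subset_span ⟨i, rfl⟩)
      rw [hφ] at this
      exact (Submodule.mem_bot K).mp this
    have key : ∀ x : J → K, φ x = ∑ j, x j * φ (Pi.single j 1) := by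
      intro x
      conv_lhs => rw [← Finset.univ_sum_single x]
      rw [map_sum]
      refine Finset.sum_congr rfl fun j _ => ?_
      have : (Pi.single j (x j) : J → K) = x j • Pi.single j (1 : K) := by
        rw [← Pi.single_smul]; simp
      rw [this, map_smul, smul_eq_mul]
    have hc := h (fun j => φ (Pi.single j 1)) (fun i => by rw [← key]; exact hφ' i)
    ext x
    simpa using congrFun hc x
  rw [htop] at hsp
  -- basis
  let b : Module.Basis κ K (J → K) := Module.Basis.mk hli (by rw [hsp])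
  let e : J ≃ κ := (Pi.basisFun K J).indexEquiv b
  refine ⟨fun j => a (e j), ?_⟩
  have hli2 : LinearIndependent K (fun j => A (a (e j))) := by
    have := hli.comp e e.injective
    exact this
  have hU := (Matrix.linearIndependent_rows_iff_isUnit
    (A := Matrix.of fun j => A (a (e j)))).mp hli2
  rw [Matrix.isUnit_iff_isUnit_det] at hU
  exact hU.ne_zero

end Rows

section Minor

variable (r : ℕ)

/-- generic coefficient polynomials -/
noncomputable def gen (i : Fin r) (e' e : Fin 2 →₀ ℕ) : MvPolynomial (Fin r × Fin 2) ℤ :=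
  coeff e' (e.prod fun j k => (X j + C (X (i, j)) : MvPolynomial (Fin 2)
    (MvPolynomial (Fin r × Fin 2) ℤ)) ^ k)

variable {r}

/-- evaluation of the integral polynomials at a tuple over a field -/
noncomputable def ev {L : Type*} [Field L] (q : Fin r → Fin 2 → L) :
    MvPolynomial (Fin r × Fin 2) ℤ →+* L :=
  eval₂Hom (Int.castRingHom L) (fun ij => q ij.1 ij.2)

theorem ev_gen {L : Type*} [Field L] (q : Fin r → Fin 2 → L) (i : Fin r) (e' e : Fin 2 →₀ ℕ) :
    ev q (gen r i e' e) = coeff e' (shift (q i) (monomial e (1 : L))) := by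
  unfold gen
  rw [← coeff_map]
  congr 1
  rw [shift, aeval_monomial, map_one, one_mul]
  simp only [Finsupp.prod, map_prod, map_pow, map_add, map_X, map_C]
  refine Finset.prod_congr rfl fun j _ => ?_
  simp [ev]

theorem shift_coeff_eq_sum {L : Type*} [Field L] {J : Type*} [Fintype J]
    (q : Fin r → Fin 2 → L) (i : Fin r) (e' : Fin 2 →₀ ℕ) (mon : J → (Fin 2 →₀ ℕ)) (c : J → L) :
    coeff e' (shift (q i) (∑ j, monomial (mon j) (c j)))
      = ∑ j, ev q (gen r i e' (mon j)) * c j := by
  rw [map_sum, coeff_sum]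
  refine Finset.sum_congr rfl fun j _ => ?_
  rw [ev_gen]
  have : (monomial (mon j) (c j) : MvPolynomial (Fin 2) L) = c j • monomial (mon j) (1 : L) := by
    rw [smul_monomial, smul_eq_mul, mul_one]
  rw [this, map_smul, coeff_smul, smul_eq_mul, mul_comm]

section Mon

/-- monomials of degree at most `d` -/
abbrev Mon (d : ℕ) : Type := {e : Fin 2 →₀ ℕ // e.degree ≤ d}

noncomputable instance instFintypeMon (d : ℕ) : Fintype (Mon d) :=
  (Finsupp.finite_of_degree_le (σ := Fin 2) d).fintype

/-- the polynomial with given coefficients -/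
noncomputable def monSum {K : Type*} [Field K] {d : ℕ} (c : Mon d → K) : MvPolynomial (Fin 2) K :=
  ∑ e : Mon d, monomial (e : Fin 2 →₀ ℕ) (c e)

variable {K : Type*} [Field K] {d : ℕ}

theorem totalDegree_monSum (c : Mon d → K) : (monSum c).totalDegree ≤ d := by
  refine totalDegree_finsetSum_le fun e _ => ?_
  refine (totalDegree_monomial_le _ _).trans ?_
  have h : (e : Fin 2 →₀ ℕ).degree ≤ d := e.2
  simpa [Finsupp.sum, Finsupp.degree_apply] using h

theorem coeff_monSum (c : Mon d → K) (e : Mon d) :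
    coeff (e : Fin 2 →₀ ℕ) (monSum c) = c e := by
  classical
  rw [monSum, coeff_sum, Finset.sum_eq_single e]
  · simp
  · intro b _ hb
    rw [coeff_monomial, if_neg]
    intro hbe; exact hb (Subtype.ext hbe)
  · intro he; exact absurd (Finset.mem_univ _) he

theorem coeff_eq_zero_of_lt {f : MvPolynomial (Fin 2) K} (hf : f.totalDegree ≤ d)
    {e : Fin 2 →₀ ℕ} (he : ¬ e.degree ≤ d) : coeff e f = 0 := by
  apply coeff_eq_zero_of_totalDegree_lt
  have : f.totalDegree < e.degree := lt_of_le_of_lt hf (not_le.mp he)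
  simpa [Finsupp.degree_apply, Finsupp.sum] using this

theorem eq_monSum {f : MvPolynomial (Fin 2) K} (hf : f.totalDegree ≤ d) :
    f = monSum (fun e : Mon d => coeff (e : Fin 2 →₀ ℕ) f) := by
  ext e
  by_cases he : e.degree ≤ d
  · exact (coeff_monSum (fun e : Mon d => coeff (e : Fin 2 →₀ ℕ) f) ⟨e, he⟩).symm
  · rw [coeff_eq_zero_of_lt hf he, coeff_eq_zero_of_lt (totalDegree_monSum _) he]

end Mon

/-- Transfer: if over one field there is one tuple with no nonzero curve, there is a nonzero integral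
polynomial `g` such that there is no nonzero curve for any tuple (over any field) with
`g (p) ≠ 0`. -/
theorem exists_minor {L : Type*} [Field L] (q : Fin r → Fin 2 → L) (d : ℕ)
    (m : Fin r → ℕ)
    (h : ∀ f : MvPolynomial (Fin 2) L, f.totalDegree ≤ d →
      (∀ i, VanishesToOrder f (q i) (m i)) → f = 0) :
    ∃ g : MvPolynomial (Fin r × Fin 2) ℤ, g ≠ 0 ∧
      ∀ p : Fin r → Fin 2 → ℂ, ev p g ≠ 0 → ∀ f : MvPolynomial (Fin 2) ℂ, f.totalDegree ≤ d →
        (∀ i, VanishesToOrder f (p i) (m i)) → f = 0 := by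
  classical
  let I := {x : Fin r × (Fin 2 →₀ ℕ) // x.2.degree < m x.1}
  let A : I → Mon d → MvPolynomial (Fin r × Fin 2) ℤ :=
    fun x e => gen r x.1.1 x.1.2 e
  obtain ⟨ρ, hρ⟩ := exists_rows_det_ne_zero (fun x e => ev q (A x e)) (by
    intro c hc
    have hf := h (monSum c) (totalDegree_monSum c) (by
      intro i
      rw [vto_iff]
      intro e' he'
      rw [monSum, shift_coeff_eq_sum]
      exact hc ⟨(i, e'), he'⟩)
    funext e
    have := coeff_monSum c e
    rw [hf] at this
    simpa using this.symm)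
  refine ⟨(Matrix.of fun j => A (ρ j)).det, ?_, ?_⟩
  · intro h0
    apply hρ
    have h1 : (Matrix.of fun j => fun e => ev q (A (ρ j) e))
        = (ev q).mapMatrix (Matrix.of fun j => A (ρ j)) := by
      ext a b; rfl
    rw [h1, ← RingHom.map_det, h0, map_zero]
  · intro p hp f hfd hf
    have hdet : ((ev p).mapMatrix (Matrix.of fun j => A (ρ j))).det ≠ 0 := by
      rw [← RingHom.map_det]; exact hp
    have hker : ((ev p).mapMatrix (Matrix.of fun j => A (ρ j))).mulVec
        (fun e => coeff (e : Fin 2 →₀ ℕ) f) = 0 := by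
      funext j
      have h1 := (vto_iff f (p (ρ j).1.1) (m (ρ j).1.1)).mp (hf _) (ρ j).1.2 (ρ j).2
      rw [eq_monSum hfd, monSum, shift_coeff_eq_sum] at h1
      simpa [Matrix.mulVec, dotProduct, A] using h1
    have hc0 := Matrix.eq_zero_of_mulVec_eq_zero hdet hker
    rw [eq_monSum hfd, monSum]
    refine Finset.sum_eq_zero fun e _ => ?_
    have := congrFun hc0 e
    simp only [Pi.zero_apply] at this
    rw [this, monomial_zero]

end Minor

section Final

/-- there is a tuple over `ℂ` at which no nonzero integral polynomial vanishes -/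
theorem exists_very_general (r : ℕ) : ∃ p : Fin r → Fin 2 → ℂ,
    ∀ g : MvPolynomial (Fin r × Fin 2) ℤ, g ≠ 0 → ev p g ≠ 0 := by
  obtain ⟨s, hs⟩ := exists_isTranscendenceBasis ℤ ℂ
  have hcard : Cardinal.mk ℂ = Cardinal.mk s := by
    refine IsAlgClosed.cardinal_eq_cardinal_transcendence_basis_of_aleph0_lt' _ hs ?_ ?_
    · exact Cardinal.mk_le_aleph0
    · rw [Cardinal.mk_complex]; exact Cardinal.aleph0_lt_continuum
  have hinf : Infinite s := by
    rw [Cardinal.infinite_iff, ← hcard, Cardinal.mk_complex]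
    exact Cardinal.aleph0_le_continuum
  obtain ⟨φ⟩ : Nonempty (Fin r × Fin 2 ↪ s) := by
    exact ⟨(finProdFinEquiv.toEmbedding.trans (Fin.valEmbedding)).trans (Infinite.natEmbedding s)⟩
  have hind : AlgebraicIndependent ℤ (fun x : Fin r × Fin 2 => ((φ x : s) : ℂ)) :=
    hs.1.comp φ φ.injective
  refine ⟨fun i j => ((φ (i, j) : s) : ℂ), fun g hg h0 => hg ?_⟩
  rw [algebraicIndependent_iff] at hind
  apply hind g
  rw [← h0]
  rfl

/-- The multiplicity bookkeeping: cyclic shifts and cube. -/
theorem exists_shift {L : Type*} [Field L] {r : ℕ} (hr : 1 ≤ r) (p : Fin r → Fin 2 → L) (d : ℕ)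
    (m : Fin r → ℕ)
    (hp : ∀ F : MvPolynomial (Fin 2) L, F.totalDegree ≤ 3 * (r * d) →
      (∀ i, VanishesToOrder F (p i) (3 * ∑ i, m i)) → F = 0) :
    ∃ q : Fin r → Fin 2 → L, ∀ f : MvPolynomial (Fin 2) L, f.totalDegree ≤ d →
      (∀ i, VanishesToOrder f (q i) (m i)) → f = 0 := by
  classical
  have hr0 : NeZero r := ⟨by omega⟩
  by_contra hcon
  push Not at hcon
  choose f hfd hfv hf0 using fun s : Fin r => hcon (fun i => p (i + s))
  have h1 : (∏ s : Fin r, (f s) ^ 3) = 0 := by
    apply hp
    · refine (totalDegree_finsetProd _ _).trans ?_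
      calc ∑ s : Fin r, ((f s) ^ 3).totalDegree ≤ ∑ _s : Fin r, 3 * d :=
            Finset.sum_le_sum fun s _ => (totalDegree_pow _ _).trans
              (Nat.mul_le_mul_left 3 (hfd s))
        _ = 3 * (r * d) := by simp; ring
    · intro j
      have h2 : 3 * ∑ i, m i = ∑ s : Fin r, 3 * m (j - s) := by
        rw [← Finset.mul_sum]
        congr 1
        exact (Fintype.sum_equiv (Equiv.subLeft j) _ _ (fun s => rfl)).symm
      rw [h2]
      refine vto_prod _ _ _ _ fun s _ => ?_
      have h3 := hfv s (j - s)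
      simp only [sub_add_cancel] at h3
      exact vto_pow h3 3
  rw [Finset.prod_eq_zero_iff] at h1
  obtain ⟨s, _, hs⟩ := h1
  exact hf0 s (pow_eq_zero_iff (by norm_num) |>.mp hs)

/-- **Reduction of Nagata's conjecture to the uniform statement over one field.** -/
theorem nagata_of_core
    (core : ∀ r n m : ℕ, 10 ≤ r → 1 ≤ n → 1 ≤ m → 9 * n ^ 2 ≤ r * m ^ 2 →
      ∃ (L : Type) (_ : Field L) (p : Fin r → Fin 2 → L),
        ∀ F : MvPolynomial (Fin 2) L, F.totalDegree ≤ 3 * n →
          (∀ i, VanishesToOrder F (p i) m) → F = 0)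
    (r : ℕ) (hr : 10 ≤ r) :
    ∃ S : Set (MvPolynomial (Fin r × Fin 2) ℂ),
      S.Countable ∧ (∀ g ∈ S, g ≠ 0) ∧
      (∃ p : Fin r → Fin 2 → ℂ, ∀ g ∈ S,
        MvPolynomial.eval (fun ij : Fin r × Fin 2 => p ij.1 ij.2) g ≠ 0) ∧
      ∀ p : Fin r → Fin 2 → ℂ, (∀ g ∈ S,
          MvPolynomial.eval (fun ij : Fin r × Fin 2 => p ij.1 ij.2) g ≠ 0) →
        ∀ (d : ℕ) (f : MvPolynomial (Fin 2) ℂ) (m : Fin r → ℕ),
          1 ≤ d → f ≠ 0 → f.totalDegree ≤ d →
          (∀ i, Crest.AlgGeometry.VanishesToOrder f (p i) (m i)) →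
          (∑ i, (m i : ℝ)) < (d : ℝ) * Real.sqrt (r : ℝ) := by
  have hcount : Countable (MvPolynomial (Fin r × Fin 2) ℤ) := by
    rw [← Cardinal.mk_le_aleph0_iff]
    refine (MvPolynomial.cardinalMk_le_max (σ := Fin r × Fin 2) (R := ℤ)).trans ?_
    exact max_le (max_le Cardinal.mk_le_aleph0 Cardinal.mk_le_aleph0) le_rfl
  have hev : ∀ (p : Fin r → Fin 2 → ℂ) (g : MvPolynomial (Fin r × Fin 2) ℤ),
      MvPolynomial.eval (fun ij : Fin r × Fin 2 => p ij.1 ij.2) (map (Int.castRingHom ℂ) g)
        = ev p g := by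
    intro p g
    rw [eval_map]
    rfl
  refine ⟨(fun g : MvPolynomial (Fin r × Fin 2) ℤ => map (Int.castRingHom ℂ) g) '' {g | g ≠ 0},
    (Set.to_countable _).image _, ?_, ?_, ?_⟩
  · rintro _ ⟨g, hg, rfl⟩ h0
    apply hg
    apply map_injective (Int.castRingHom ℂ) (RingHom.injective_int _)
    rw [map_zero]
    exact h0
  · obtain ⟨p, hp⟩ := exists_very_general r
    refine ⟨p, ?_⟩
    rintro _ ⟨g, hg, rfl⟩
    rw [hev]
    exact hp g hg
  · intro p hp d f m hd hf0 hfd hfv
    by_contra hlt
    rw [not_lt] at hlt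
    -- numerics
    have hrpos : (0 : ℝ) < r := by exact_mod_cast (by omega : 0 < r)
    have hsq : (d : ℝ) ^ 2 * r ≤ ((∑ i, m i : ℕ) : ℝ) ^ 2 := by
      have h1 : (d : ℝ) * Real.sqrt r ≤ ((∑ i, m i : ℕ) : ℝ) := by
        push_cast; exact hlt
      have h2 : 0 ≤ (d : ℝ) * Real.sqrt r := by positivity
      calc (d : ℝ) ^ 2 * r = ((d : ℝ) * Real.sqrt r) ^ 2 := by
            rw [mul_pow, Real.sq_sqrt hrpos.le]
        _ ≤ _ := pow_le_pow_left₀ h2 h1 2
    have hsqN : d ^ 2 * r ≤ (∑ i, m i) ^ 2 := by exact_mod_cast hsq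
    have hMpos : 1 ≤ ∑ i, m i := by
      by_contra h
      have h0 : ∑ i, m i = 0 := by omega
      rw [h0] at hsqN
      have : 0 < d ^ 2 * r := by positivity
      omega
    obtain ⟨L, _, q0, hq0⟩ := core r (r * d) (3 * ∑ i, m i) hr
      (Nat.one_le_iff_ne_zero.mpr (by positivity)) (by omega) (by
        have : r * (d ^ 2 * r) ≤ r * (∑ i, m i) ^ 2 := Nat.mul_le_mul_left r hsqN
        nlinarith [this])
    obtain ⟨q, hq⟩ := exists_shift (by omega) q0 d m hq0
    obtain ⟨g, hg0, hg⟩ := exists_minor q d m hq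
    have hpg : ev p g ≠ 0 := by
      rw [← hev]
      exact hp _ ⟨g, hg0, rfl⟩
    exact hf0 (hg p hpg f hfd hfv)

end Final

end Crest.Agent.R259.Reduce
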