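import Crest.Agent.R259.AsmFinal
import Crest.Agent.R259.Reduce
import Crest.Agent.R259.Cubic
import Crest.Agent.R259.KernelH

/-!
R259 (Nagata): the core theorem over `ℚ`.
-/

set_option autoImplicit false

open Polynomial Crest.AlgGeometry

namespace Crest.Agent.R259.Main

/-- the points `z_j = j + 1`. -/
noncomputable def zpt {r : ℕ} (j : Fin r) : ℚˣ :=
  Units.mk0 ((j : ℕ) + 1 : ℚ) (by positivity)

theorem zpt_injective {r : ℕ} : Function.Injective (zpt (r := r)) := by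
  intro a b hab
  have h : ((a : ℕ) + 1 : ℚ) = (b : ℕ) + 1 := by
    have := congrArg (fun u : ℚˣ => (u : ℚ)) hab
    simpa [zpt] using this
  have h' : (a : ℕ) = (b : ℕ) := by
    have h2 : ((a : ℕ) : ℚ) = ((b : ℕ) : ℚ) := by linarith
    exact_mod_cast h2
  exact Fin.ext h'

theorem core (r n m : ℕ) (hr : 10 ≤ r) (hn : 1 ≤ n) (hm : 1 ≤ m) (h : 9 * n ^ 2 ≤ r * m ^ 2) :
    ∃ (L : Type) (_ : Field L) (p : Fin r → Fin 2 → L),
      ∀ F : MvPolynomial (Fin 2) L, F.totalDegree ≤ 3 * n →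
        (∀ i, VanishesToOrder F (p i) m) → F = 0 := by
  obtain ⟨p, hp⟩ := Asm.core_aux (k := ℚ)
    (fun {N B al} h1 h2 => Cubic.cubic' h1 h2)
    (fun t0 t1 t2 x y ht0 _ ht2 hne hxy hy p0 p1 p2 h0 => by
      rw [PowerSeries.coeff_zero_eq_constantCoeff_apply] at ht0 ht2 hy
      exact Kernel.hker_ps (by rw [ht0]; exact one_ne_zero) ht2 hne hy hxy p0 p1 p2 h0)
    hr hn hm h zpt zpt_injective
  exact Asm.core_of_domain p hp

end Crest.Agent.R259.Main
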