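import Mathlib.Algebra.Polynomial.Laurent
import Mathlib.Algebra.Polynomial.FieldDivision
import Mathlib.Tactic

/-!
R259 (Nagata): the toric lemma.

`c 0, ..., c n` are Laurent polynomials (the coefficient of `v^(n-i)` is `c i`), with support in the
windows `-(r m i) < n x` (`x = 0` for `i = 0`), `n x ≤ (9n - rm) i`, and for every `l < m` and every
`j` the power `(T - z_j)^(m-l)` divides the `l`-th Taylor coefficient at `v = 1`.  Then all `c i = 0`.
-/

set_option autoImplicit false

namespace Crest.Agent.R259.Toric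

open LaurentPolynomial Finset

variable {k : Type*} [Field k]

theorem coeff_mul_T (f : k[T;T⁻¹]) (a y : ℤ) : (f * T a).coeff y = f.coeff (y - a) := by
  have := AddMonoidAlgebra.coeff_mul_single_eq_coeff_mul (x := f) (m := a) (m₁ := y) (r := (1:k))
    (y - a) (by intro m' _; constructor <;> intro h <;> omega)
  rw [mul_one] at this
  exact this

theorem coeff_C_mul_T (c : k) (a y : ℤ) : (C c * T a).coeff y = if a = y then c else 0 := by
  rw [coeff_mul_T, C_apply]
  by_cases h : a = y
  · simp [h]
  · rw [if_neg, if_neg h]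
    intro h'
    exact h (by omega)

theorem coeff_sum' {ι : Type*} (s : Finset ι) (f : ι → k[T;T⁻¹]) (x : ℤ) :
    (∑ i ∈ s, f i).coeff x = ∑ i ∈ s, (f i).coeff x := by
  classical
  induction s using Finset.induction_on with
  | empty => simp
  | insert a s ha ih => rw [Finset.sum_insert ha, Finset.sum_insert ha, ← ih]; rfl

/-- A Laurent polynomial supported in `[a, a+N)` becomes, after a shift, a polynomial of degree `< N`. -/
theorem exists_poly_of_supp (f : k[T;T⁻¹]) (a : ℤ) (N : ℕ)
    (hf : ∀ x, f.coeff x ≠ 0 → a ≤ x ∧ x < a + N) :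
    ∃ g : Polynomial k, (∀ i, N ≤ i → g.coeff i = 0) ∧ Polynomial.toLaurent g = f * T (-a) := by
  classical
  refine ⟨∑ i ∈ range N, Polynomial.monomial i (f.coeff (a + i)), ?_, ?_⟩
  · intro i hi
    simp only [Polynomial.finsetSum_coeff, Polynomial.coeff_monomial]
    apply Finset.sum_eq_zero
    intro b hb
    rw [if_neg]
    have := Finset.mem_range.mp hb
    omega
  · rw [map_sum]
    simp only [← Polynomial.C_mul_X_pow_eq_monomial, Polynomial.toLaurent_C_mul_X_pow]
    ext y
    rw [coeff_mul_T, coeff_sum']
    simp only [coeff_C_mul_T, sub_neg_eq_add]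
    by_cases hy : f.coeff (y + a) = 0
    · rw [hy]
      apply Finset.sum_eq_zero
      intro i _
      split_ifs with h
      · rw [h, add_comm a y, hy]
      · rfl
    · obtain ⟨h1, h2⟩ := hf _ hy
      rw [Finset.sum_eq_single (y.toNat)]
      · rw [if_pos (by omega)]
        congr 1
        omega
      · intro b _ hb
        rw [if_neg (by omega)]
      · intro hn
        exfalso
        apply hn
        rw [Finset.mem_range]
        omega

/-- Width lemma: if `(T - z_j)^e` divides `f` for `r` distinct nonzero `z_j` and the support of `f`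
lies in an interval of length `< r e`, then `f = 0`. -/
theorem width_lemma {r : ℕ} (z : Fin r → k) (hz : Function.Injective z) (hz0 : ∀ j, z j ≠ 0)
    (e : ℕ) (f : k[T;T⁻¹]) (a : ℤ)
    (hf : ∀ x, f.coeff x ≠ 0 → a ≤ x ∧ x < a + (r * e : ℕ))
    (hdiv : ∀ j, (T 1 - C (z j)) ^ e ∣ f) : f = 0 := by
  classical
  obtain ⟨g, hg0, hg⟩ := exists_poly_of_supp f a (r * e) hf
  have key : ∀ j, (Polynomial.X - Polynomial.C (z j)) ^ e ∣ g := by
    intro j
    obtain ⟨u, hu⟩ := hdiv j
    obtain ⟨N, u', hu'⟩ := LaurentPolynomial.exists_T_pow (u * T (-a))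
    have h1 : Polynomial.toLaurent (g * Polynomial.X ^ N)
        = Polynomial.toLaurent ((Polynomial.X - Polynomial.C (z j)) ^ e * u') := by
      rw [map_mul, map_mul, map_pow Polynomial.toLaurent (Polynomial.X - _), map_sub, hu', hg, hu,
        Polynomial.toLaurent_X_pow, Polynomial.toLaurent_X, Polynomial.toLaurent_C]
      ring
    have h2 := Polynomial.toLaurent_injective h1
    have h3 : (Polynomial.X - Polynomial.C (z j)) ^ e ∣ g * Polynomial.X ^ N := ⟨u', h2⟩
    refine IsCoprime.dvd_of_dvd_mul_right ?_ h3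
    apply IsCoprime.pow
    have := Polynomial.isCoprime_X_sub_C_of_isUnit_sub (R := k) (a := z j) (b := 0)
      (by simpa using hz0 j)
    simpa using this
  have hprod : ∏ j : Fin r, (Polynomial.X - Polynomial.C (z j)) ^ e ∣ g := by
    apply Finset.prod_dvd_of_coprime
    · intro i _ j _ hij
      exact ((Polynomial.pairwise_coprime_X_sub_C hz) hij).pow
    · intro i _
      exact key i
  have hgz : g = 0 := by
    by_contra hne
    have h1 := Polynomial.natDegree_le_of_dvd hprod hne
    rw [Polynomial.natDegree_prod_of_monic _ _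
      (fun i _ => (Polynomial.monic_X_sub_C (z i)).pow e)] at h1
    simp only [Polynomial.natDegree_pow, Polynomial.natDegree_X_sub_C, mul_one, sum_const,
      card_univ, Fintype.card_fin, smul_eq_mul] at h1
    have h2 := hg0 g.natDegree h1
    exact hne (Polynomial.leadingCoeff_eq_zero.mp h2)
  rw [hgz, map_zero] at hg
  have : f = f * T (-a) * T a := by
    rw [mul_assoc, ← T_add]; simp
  rw [this, ← hg, zero_mul]

/-- partial sums -/
noncomputable def S (c : ℕ → k[T;T⁻¹]) (i : ℕ) : k[T;T⁻¹] := ∑ l ∈ range (i + 1), c l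

theorem S_iter (c : ℕ → k[T;T⁻¹]) (j i : ℕ) :
    (S^[j + 1] c) i = ∑ l ∈ range (i + 1), ((i - l + j).choose j) • c l := by
  induction j generalizing i with
  | zero => simp [S]
  | succ j ihj =>
    rw [Function.iterate_succ_apply', S]
    induction i with
    | zero =>
      simp [ihj]
    | succ i ihi =>
      rw [Finset.sum_range_succ, ihi, ihj (i + 1)]
      rw [Finset.sum_range_succ _ (i + 1), Finset.sum_range_succ _ (i + 1), ← add_assoc,
        ← Finset.sum_add_distrib]
      congr 1
      · apply Finset.sum_congr rfl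
        intro l hl
        have hl' := Finset.mem_range.mp hl
        rw [← add_smul]
        congr 1
        have e1 : i + 1 - l + (j + 1) = (i + 1 - l + j) + 1 := by omega
        have e2 : i - l + (j + 1) = i + 1 - l + j := by omega
        rw [e1, e2, Nat.choose_succ_succ, add_comm]
      · simp

/-- Width lemma, version with pairwise differences. -/
theorem width_lemma' {r : ℕ} (z : Fin r → k) (hz : Function.Injective z) (hz0 : ∀ j, z j ≠ 0)
    (e : ℕ) (f : k[T;T⁻¹])
    (hf : ∀ x y, f.coeff x ≠ 0 → f.coeff y ≠ 0 → y < x + (r * e : ℕ))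
    (hdiv : ∀ j, (T 1 - C (z j)) ^ e ∣ f) : f = 0 := by
  classical
  by_contra hne
  have hs : f.coeff.support.Nonempty := by
    rw [Finset.nonempty_iff_ne_empty]
    intro h
    apply hne
    ext x
    by_contra hx
    have : x ∈ f.coeff.support := Finsupp.mem_support_iff.mpr hx
    rw [h] at this
    exact absurd this (Finset.notMem_empty x)
  set a := f.coeff.support.min' hs with ha
  have hamem : f.coeff a ≠ 0 := Finsupp.mem_support_iff.mp (Finset.min'_mem _ hs)
  refine hne (width_lemma z hz hz0 e f a ?_ hdiv)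
  intro x hx
  exact ⟨Finset.min'_le _ _ (Finsupp.mem_support_iff.mpr hx), hf a x hamem hx⟩

theorem S_succ (c : ℕ → k[T;T⁻¹]) (j i : ℕ) :
    (S^[j + 1] c) i = ∑ l ∈ range (i + 1), (S^[j] c) l := by
  rw [Function.iterate_succ_apply', S]

theorem exists_of_sum_coeff_ne {ι : Type*} (s : Finset ι) (f : ι → k[T;T⁻¹]) (x : ℤ)
    (h : (∑ i ∈ s, f i).coeff x ≠ 0) : ∃ i ∈ s, (f i).coeff x ≠ 0 := by
  rw [coeff_sum'] at h
  exact Finset.exists_ne_zero_of_sum_ne_zero h

/-- The window property at level `j`. -/
def Win (r n m : ℕ) (c : ℕ → k[T;T⁻¹]) (j : ℕ) : Prop :=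
  ∀ i, i ≤ n - j → ∀ x : ℤ, (c i).coeff x ≠ 0 →
    (i = 0 → 0 ≤ x) ∧ (1 ≤ i → -((r : ℤ) * m * i) < n * x) ∧
      (n : ℤ) * x ≤ (9 * n - r * m) * (i + j)

theorem win_ne_zero_idx (r n m : ℕ) (hr : 9 * n < r * m) (c : ℕ → k[T;T⁻¹]) (j : ℕ)
    (hj : 1 ≤ j) (hw : Win r n m c j) (i : ℕ) (hi : i ≤ n - j) (x : ℤ)
    (hx : (c i).coeff x ≠ 0) :
    -((r : ℤ) * m * i) < n * x ∧ 9 * (n : ℤ) * (n * x) < (9 * n - r * m) * (r * m * j) := by
  obtain ⟨h0, h1, h2⟩ := hw i hi x hx
  have hrm : (9 * n : ℤ) < r * m := by exact_mod_cast hr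
  have hj' : (1 : ℤ) ≤ j := by exact_mod_cast hj
  have hn0 : (0 : ℤ) ≤ n := by positivity
  have hi1 : 1 ≤ i := by
    by_contra hi0
    have hi0' : i = 0 := by omega
    have hx0 := h0 hi0'
    subst hi0'
    have h3 : (9 * (n : ℤ) - r * m) * ((0 : ℕ) + j) < 0 := by
      apply mul_neg_of_neg_of_pos
      · linarith
      · push_cast; linarith
    have h4 : 0 ≤ (n : ℤ) * x := mul_nonneg hn0 hx0
    linarith
  have h3 := h1 hi1
  refine ⟨h3, ?_⟩
  have hi' : (1 : ℤ) ≤ i := by exact_mod_cast hi1
  -- RM i > (RM - 9n)(i+j)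
  have h5 : (r : ℤ) * m * j < 9 * n * (i + j) := by nlinarith
  have hn1 : (0 : ℤ) < n := by
    by_contra hn
    have : (n : ℤ) = 0 := by linarith
    rw [this] at h5
    have hrm0 : (0 : ℤ) < r * m := by linarith
    nlinarith
  have h6 : (9 * (n : ℤ) - r * m) * (9 * n * (i + j)) < (9 * n - r * m) * (r * m * j) :=
    mul_lt_mul_of_neg_left h5 (by linarith)
  nlinarith

theorem toric_lemma (r n m : ℕ) (hn : 1 ≤ n) (hm : 1 ≤ m) (hr : 9 * n < r * m)
    (h : 9 * n ^ 2 ≤ r * m ^ 2)
    (z : Fin r → k) (hz : Function.Injective z) (hz0 : ∀ j, z j ≠ 0)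
    (c : ℕ → k[T;T⁻¹])
    (hc0 : ∀ x, (c 0).coeff x ≠ 0 → x = 0)
    (hcl : ∀ i, 1 ≤ i → i ≤ n → ∀ x, (c i).coeff x ≠ 0 → -((r : ℤ) * m * i) < n * x)
    (hcu : ∀ i, i ≤ n → ∀ x, (c i).coeff x ≠ 0 → (n : ℤ) * x ≤ (9 * n - r * m) * i)
    (hdiv : ∀ l < m, ∀ j, (T 1 - C (z j)) ^ (m - l) ∣
      ∑ i ∈ range (n + 1), ((n - i).choose l) • c i) :
    ∀ i ≤ n, c i = 0 := by
  classical
  have hrm : (9 * n : ℤ) < r * m := by exact_mod_cast hr
  have hn1 : (1 : ℤ) ≤ n := by exact_mod_cast hn
  have hm1 : (1 : ℤ) ≤ m := by exact_mod_cast hm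
  have h' : 9 * (n : ℤ) ^ 2 ≤ r * m ^ 2 := by exact_mod_cast h
  have hrm0 : (0 : ℤ) < r * m := by linarith
  have hr0 : (0 : ℤ) ≤ r := by positivity
  -- divisibility for the top partial sums
  have hdiv' : ∀ j, j < m → j ≤ n → ∀ p, (T 1 - C (z p)) ^ (m - j) ∣ (S^[j + 1] c) (n - j) := by
    intro j hjm hjn p
    have := hdiv j hjm p
    rw [S_iter]
    have e : ∑ l ∈ range (n - j + 1), ((n - j - l + j).choose j) • c l
        = ∑ i ∈ range (n + 1), ((n - i).choose j) • c i := by
      rw [← Finset.sum_subset (s₁ := range (n - j + 1)) (s₂ := range (n + 1))]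
      · apply Finset.sum_congr rfl
        intro l hl
        have := Finset.mem_range.mp hl
        congr 2
        omega
      · intro x hx
        rw [Finset.mem_range] at *
        omega
      · intro x hx hx'
        rw [Finset.mem_range] at hx hx'
        rw [Nat.choose_eq_zero_of_lt (by omega), zero_smul]
    rw [e]
    exact this
  -- main induction
  have main : ∀ j, j ≤ m → j ≤ n → Win r n m (S^[j] c) j ∧ ∀ j', j' < j → (S^[j' + 1] c) (n - j') = 0 := by
    intro j
    induction j with
    | zero =>
      intro _ _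
      refine ⟨?_, fun j' hj' => absurd hj' (Nat.not_lt_zero _)⟩
      intro i hi x hx
      simp only [Function.iterate_zero, id_eq] at hx
      refine ⟨?_, ?_, ?_⟩
      · rintro rfl
        rw [hc0 x hx]
      · intro hi1
        exact hcl i hi1 (by omega) x hx
      · have := hcu i (by omega) x hx
        simpa using this
    | succ j ih =>
      intro hjm hjn
      obtain ⟨hw, hz'⟩ := ih (by omega) (by omega)
      have hvan : (S^[j + 1] c) (n - j) = 0 := by
        refine width_lemma' z hz hz0 (m - j) _ ?_ (hdiv' j (by omega) (by omega))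
        intro x y hx hy
        rw [S_succ] at hx hy
        obtain ⟨i, hi, hx⟩ := exists_of_sum_coeff_ne _ _ _ hx
        obtain ⟨i', hi', hy⟩ := exists_of_sum_coeff_ne _ _ _ hy
        rw [Finset.mem_range] at hi hi'
        have hmj : ((m - j : ℕ) : ℤ) = m - j := by push_cast [Nat.cast_sub (by omega : j ≤ m)]; ring
        have hnj : ((n - j : ℕ) : ℤ) = n - j := by push_cast [Nat.cast_sub (by omega : j ≤ n)]; ring
        have hii : (i : ℤ) ≤ n - j := by rw [← hnj]; exact_mod_cast (by omega : i ≤ n - j)
        rcases Nat.eq_zero_or_pos j with hj0 | hjpos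
        · subst hj0
          obtain ⟨a0, a1, _⟩ := hw i (by omega) x hx
          obtain ⟨_, _, b2⟩ := hw i' (by omega) y hy
          have hx1 : -((r : ℤ) * m) < x := by
            rcases Nat.eq_zero_or_pos i with hi0 | hipos
            · have := a0 hi0
              linarith
            · have := a1 hipos
              have h7 : (r : ℤ) * m * i ≤ r * m * n := by
                apply mul_le_mul_of_nonneg_left _ hrm0.le
                push_cast at hii; linarith
              have h8 : (n : ℤ) * (-(r * m)) < n * x := by linarith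
              exact lt_of_mul_lt_mul_left h8 (by linarith)
          have hy1 : y ≤ 0 := by
            have h9 : (9 * (n : ℤ) - r * m) * (i' + (0 : ℕ)) ≤ 0 := by
              apply mul_nonpos_of_nonpos_of_nonneg
              · linarith
              · positivity
            have h10 : (n : ℤ) * y ≤ n * 0 := by linarith
            exact le_of_mul_le_mul_left h10 (by linarith)
          push_cast
          simp only [Nat.sub_zero]
          linarith
        · obtain ⟨a1, _⟩ := win_ne_zero_idx r n m hr _ j hjpos hw i (by omega) x hx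
          obtain ⟨_, b2⟩ := win_ne_zero_idx r n m hr _ j hjpos hw i' (by omega) y hy
          push_cast
          rw [hmj]
          have hjj : (1 : ℤ) ≤ j := by exact_mod_cast hjpos
          have h7 : (r : ℤ) * m * i ≤ r * m * (n - j) :=
            mul_le_mul_of_nonneg_left hii hrm0.le
          have h8 : -((r : ℤ) * m * (n - j)) < n * x := by linarith
          have h9 : 9 * (n : ℤ) * (-(r * m * (n - j))) < 9 * n * (n * x) :=
            mul_lt_mul_of_pos_left h8 (by linarith)
          have h10 : 9 * (n : ℤ) * (n * y) - 9 * n * (n * x) <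
              9 * n ^ 2 * (r * m) - (r * m) * (r * m) * j := by nlinarith
          have h11 : 9 * (n : ℤ) ^ 2 * (r * j) ≤ (r * m) * (r * m) * j := by
            have : 0 ≤ (r : ℤ) * j := by positivity
            nlinarith [mul_le_mul_of_nonneg_right h' this]
          have h12 : 9 * (n : ℤ) ^ 2 * y < 9 * n ^ 2 * (x + r * (m - j)) := by nlinarith
          exact lt_of_mul_lt_mul_left h12 (by positivity)
      refine ⟨?_, ?_⟩
      · intro i hi x hx
        have hx1 := hx
        rw [S_succ] at hx1
        obtain ⟨l, hl, hx1⟩ := exists_of_sum_coeff_ne _ _ _ hx1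
        rw [Finset.mem_range] at hl
        obtain ⟨a0, a1, _⟩ := hw l (by omega) x hx1
        -- the other expression
        have hsplit : (S^[j + 1] c) i + ∑ l ∈ Finset.Ico (i + 1) (n - j + 1), (S^[j] c) l = 0 := by
          rw [← hvan, S_succ, S_succ]
          exact Finset.sum_range_add_sum_Ico _ (by omega)
        have hx2 : (∑ l ∈ Finset.Ico (i + 1) (n - j + 1), (S^[j] c) l).coeff x ≠ 0 := by
          intro h0
          apply hx
          rw [eq_neg_of_add_eq_zero_left hsplit]
          rw [AddMonoidAlgebra.coeff_neg, Finsupp.neg_apply, h0, neg_zero]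
        obtain ⟨l', hl', hx2⟩ := exists_of_sum_coeff_ne _ _ _ hx2
        rw [Finset.mem_Ico] at hl'
        obtain ⟨_, _, b2⟩ := hw l' (by omega) x hx2
        refine ⟨?_, ?_, ?_⟩
        · intro hi0
          exact a0 (by omega)
        · intro hi1
          rcases Nat.eq_zero_or_pos l with hl0 | hlpos
          · have := a0 hl0
            have h13 : 0 ≤ (n : ℤ) * x := mul_nonneg (by linarith) this
            have h14 : 0 < (r : ℤ) * m * i := mul_pos hrm0 (by exact_mod_cast hi1)
            linarith
          · have := a1 hlpos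
            have h13 : (r : ℤ) * m * l ≤ r * m * i :=
              mul_le_mul_of_nonneg_left (by exact_mod_cast (by omega : l ≤ i)) hrm0.le
            linarith
        · have h13 : ((i : ℤ) + (j + 1 : ℕ)) ≤ l' + j := by
            push_cast
            have : (i : ℤ) + 1 ≤ l' := by exact_mod_cast hl'.1
            linarith
          have h14 : (9 * (n : ℤ) - r * m) * (l' + j) ≤ (9 * n - r * m) * (i + (j + 1 : ℕ)) :=
            mul_le_mul_of_nonpos_left h13 (by linarith)
          linarith
      · intro j' hj'
        rcases Nat.lt_succ_iff_lt_or_eq.mp hj' with h1 | h1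
        · exact hz' j' h1
        · rw [h1]; exact hvan
  -- conclusion at level J = min m n
  set J := min m n with hJ
  have hJm : J ≤ m := min_le_left _ _
  have hJn : J ≤ n := min_le_right _ _
  have hJ1 : 1 ≤ J := le_min hm hn
  obtain ⟨hwJ, hzJ⟩ := main J hJm hJn
  have hend : ∀ i, i ≤ n - J → (S^[J] c) i = 0 := by
    intro i hi
    by_contra hne
    have : ∃ x, ((S^[J] c) i).coeff x ≠ 0 := by
      by_contra hall
      push Not at hall
      exact hne (LaurentPolynomial.ext (fun a => by rw [hall a]; rfl))
    obtain ⟨x, hx⟩ := this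
    obtain ⟨a1, a2⟩ := win_ne_zero_idx r n m hr _ J hJ1 hwJ i hi x hx
    rcases le_total m n with hmn | hnm
    · have hJe : J = m := min_eq_left hmn
      have hii : (i : ℤ) ≤ n - m := by
        have : i + m ≤ n := by omega
        have : (i : ℤ) + m ≤ n := by exact_mod_cast this
        linarith
      rw [hJe] at a2
      have h7 : (r : ℤ) * m * i ≤ r * m * (n - m) :=
        mul_le_mul_of_nonneg_left hii hrm0.le
      have h8 : -((r : ℤ) * m * (n - m)) < n * x := by linarith
      have h9 : 9 * (n : ℤ) * (-(r * m * (n - m))) < 9 * n * (n * x) :=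
        mul_lt_mul_of_pos_left h8 (by linarith)
      have h10 : (r : ℤ) * m * (r * m ^ 2) < r * m * (9 * n ^ 2) := by nlinarith
      have h11 := lt_of_mul_lt_mul_left h10 hrm0.le
      linarith
    · have hJe : J = n := min_eq_right hnm
      have hi0 : i = 0 := by omega
      obtain ⟨b0, _, b2⟩ := hwJ i hi x hx
      have hx0 := b0 hi0
      rw [hi0, hJe] at b2
      have h3 : (9 * (n : ℤ) - r * m) * ((0 : ℕ) + n) < 0 := by
        apply mul_neg_of_neg_of_pos
        · linarith
        · push_cast; linarith
      have h4 : 0 ≤ (n : ℤ) * x := mul_nonneg (by linarith) hx0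
      linarith
  -- go down
  have down : ∀ d, d ≤ J → ∀ i, i ≤ n - (J - d) → (S^[J - d] c) i = 0 := by
    intro d
    induction d with
    | zero => intro _; simpa using hend
    | succ d ih =>
      intro hd
      have ih' := ih (by omega)
      have e : J - d = (J - (d + 1)) + 1 := by omega
      have htop : (S^[(J - (d + 1)) + 1] c) (n - (J - (d + 1))) = 0 := hzJ _ (by omega)
      have hall : ∀ i, i ≤ n - (J - (d + 1)) → (S^[(J - (d + 1)) + 1] c) i = 0 := by
        intro i hi
        rcases Nat.lt_or_ge i (n - (J - (d + 1))) with h1 | h1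
        · rw [← e]; exact ih' i (by omega)
        · have : i = n - (J - (d + 1)) := by omega
          rw [this]; exact htop
      intro i hi
      rcases Nat.eq_zero_or_pos i with h0 | h0
      · subst h0
        have := hall 0 (by omega)
        rw [S_succ] at this
        simpa using this
      · have h1 := hall i hi
        have h2 := hall (i - 1) (by omega)
        rw [S_succ] at h1 h2
        rw [Finset.sum_range_succ] at h1
        have e2 : i - 1 + 1 = i := by omega
        rw [e2] at h2
        rw [h2, zero_add] at h1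
        exact h1
  intro i hi
  have := down J le_rfl i (by omega)
  simpa using this

end Crest.Agent.R259.Toric
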